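import Vale.Agent.P112.H310.Dil

/-!
# P112: the Kakeya inequality for dilated tubes, without restriction on the abscissa
-/

namespace Vale.Agent.P112.H158

open MeasureTheory Set Vale.Agent.P112.H310
open scoped ENNReal BigOperators

/-- the affine map `(x, y) ↦ (4 x - 1, y)` -/
def ph (p : ℝ × ℝ) : ℝ × ℝ := (4 * p.1 - 1, p.2)

theorem ph_meas : Measurable ph := by unfold ph; fun_prop

theorem map_ph : Measure.map ph (volume : Measure (ℝ × ℝ)) = ENNReal.ofReal (1 / 4) • volume := by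
  have h1 : Measure.map (fun x : ℝ => 4 * x - 1) volume = ENNReal.ofReal (1 / 4) • volume := by
    have e : (fun x : ℝ => 4 * x - 1) = (fun x : ℝ => x + (-1)) ∘ fun x : ℝ => 4 * x := by
      funext x; simp [sub_eq_add_neg]
    rw [e, ← Measure.map_map (by fun_prop) (by fun_prop), Real.map_volume_mul_left (by norm_num),
      Measure.map_smul, (measurePreserving_add_right volume (-1 : ℝ)).map_eq]
    norm_num
  have h2 : ph = Prod.map (fun x : ℝ => 4 * x - 1) (id : ℝ → ℝ) := by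
    funext p; rfl
  rw [h2, Measure.volume_eq_prod, ← Measure.map_prod_map _ _ (by fun_prop) measurable_id, h1,
    Measure.map_id, Measure.prod_smul_left]

theorem lint_ph {F : ℝ × ℝ → ℝ≥0∞} (hF : Measurable F) :
    ∫⁻ p, F (ph p) = ENNReal.ofReal (1 / 4) * ∫⁻ p, F p := by
  rw [← lintegral_map hF ph_meas, map_ph, lintegral_smul_measure, smul_eq_mul]

theorem vol_ph {X : Set (ℝ × ℝ)} (hX : MeasurableSet X) :
    volume.real (ph ⁻¹' X) = 1 / 4 * volume.real X := by
  have h := congrArg (fun μ => μ X) map_ph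
  simp only [Measure.map_apply ph_meas hX, Measure.smul_apply, smul_eq_mul] at h
  rw [Measure.real, h, ENNReal.toReal_mul, ENNReal.toReal_ofReal (by norm_num)]
  rfl

variable {ι : Type*}

theorem mem_D_ph (k : ℕ) (m : ℤ) (x : ℝ) : x ∈ D (k + 2) (m + 2 ^ k) ↔ 4 * x - 1 ∈ D k m := by
  have h2 : (0 : ℝ) < 2 ^ k := by positivity
  unfold D
  rw [mem_Ico, mem_Ico, div_le_iff₀ (by positivity), lt_div_iff₀ (by positivity),
    div_le_iff₀ h2, lt_div_iff₀ h2, pow_add]
  push_cast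
  constructor
  · rintro ⟨a, b⟩; constructor <;> nlinarith
  · rintro ⟨a, b⟩; constructor <;> nlinarith

theorem reg_ph (k : ℕ) (m : ℤ) (b s w : ℝ) :
    Reg (D (k + 2) (m + 2 ^ k)) (fun x => b - s + 4 * s * x) w =
      ph ⁻¹' Reg (D k m) (fun x => b + s * x) w := by
  ext p
  simp only [Reg, mem_ofPred_eq, mem_preimage, ph]
  rw [mem_D_ph]
  have : b - s + 4 * s * p.1 = b + s * (4 * p.1 - 1) := by ring
  rw [this]

/-- the rescaled system -/
noncomputable def scl (S : Sys ι) (hε : S.ε ≤ 1 / 64) : Sys ι where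
  w := S.w
  A := S.A
  M := S.M
  δ := S.δ
  ε := 4 * S.ε
  u := fun x y => 4 * S.u (4 * x - 1) y
  k := fun i => S.k i + 2
  m := fun i => S.m i + 2 ^ S.k i
  s := fun i => 4 * S.s i
  b := fun i => S.b i - S.s i
  E := fun i => ph ⁻¹' S.E i
  w_pos := S.w_pos
  one_le_A := S.one_le_A
  M_pos := S.M_pos
  δ_pos := S.δ_pos
  ε_nonneg := by have := S.ε_nonneg; positivity
  ε_le := by linarith
  u_meas := by
    have : (Function.uncurry fun x y => 4 * S.u (4 * x - 1) y) =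
        fun p => 4 * (Function.uncurry S.u (ph p)) := by
      funext p; rfl
    rw [this]
    exact (S.u_meas.comp ph_meas).const_mul 4
  u_lip := fun x y y' => by
    have := S.u_lip (4 * x - 1) y y'
    rw [← mul_sub, abs_mul, abs_of_pos (by norm_num : (0 : ℝ) < 4)]
    linarith
  E_meas := fun i => ph_meas (S.E_meas i)
  E_sub := fun i p hp => by
    rw [reg_ph]
    exact S.E_sub i hp
  E_slope := fun i p hp => by
    have h := S.E_slope i (ph p) hp
    have h3 : 4 * S.u (4 * p.1 - 1) p.2 - 4 * S.s i = 4 * (S.u (ph p).1 (ph p).2 - S.s i) := by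
      simp only [ph]; ring
    rw [h3, abs_mul, abs_of_pos (by norm_num : (0 : ℝ) < 4)]
    have h4 : S.A * S.w / (2 : ℝ)⁻¹ ^ (S.k i + 2) = 4 * (S.A * S.w / (2 : ℝ)⁻¹ ^ S.k i) := by
      rw [pow_add]
      have : (2 : ℝ)⁻¹ ^ S.k i ≠ 0 := by positivity
      field_simp
      norm_num
    rw [h4]
    linarith
  E_dens := fun i => by
    rw [reg_ph, vol_ph (measurableSet_Reg (measurableSet_D _ _) (by fun_prop) _), vol_ph (S.E_meas i)]
    have := S.E_dens i
    linarith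
  E_ovl := fun T p => S.E_ovl T (ph p)

/-- the tube `i`, doubled in `x` and of height `B w` -/
def RX (S : Sys ι) (B : ℝ) (i : ι) : Set (ℝ × ℝ) :=
  {p | (∃ x ∈ S.I i, |p.1 - x| ≤ S.l i) ∧ |p.2 - S.line i p.1| ≤ B * S.w}

theorem RX_meas (S : Sys ι) (B : ℝ) (i : ι) : MeasurableSet (RX S B i) := by
  have h1 : MeasurableSet {p : ℝ × ℝ | ∃ x ∈ S.I i, |p.1 - x| ≤ S.l i} := by
    have h : MeasurableSet {y : ℝ | ∃ x ∈ S.I i, |y - x| ≤ S.l i} := by
      apply Set.OrdConnected.measurableSet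
      refine ⟨?_⟩
      rintro y ⟨x, hx, hyx⟩ y' ⟨x', hx', hyx'⟩ z ⟨hz, hz'⟩
      rw [abs_le] at hyx hyx'
      rcases le_total z x with h | h
      · exact ⟨x, hx, by rw [abs_le]; constructor <;> linarith [S.l_pos i]⟩
      rcases le_total x' z with h' | h'
      · exact ⟨x', hx', by rw [abs_le]; constructor <;> linarith [S.l_pos i]⟩
      · refine ⟨z, ?_, by rw [sub_self, abs_zero]; exact (S.l_pos i).le⟩
        unfold Sys.I D at *
        exact ⟨hx.1.trans h, lt_of_le_of_lt h' hx'.2⟩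
    exact measurable_fst h
  have h2 : MeasurableSet {p : ℝ × ℝ | |p.2 - S.line i p.1| ≤ B * S.w} := by
    apply measurableSet_le _ measurable_const
    exact (measurable_snd.sub ((S.line_meas i).comp measurable_fst)).abs
  exact h1.inter h2

/-- **Kakeya for the doubled and dilated tubes, all abscissas.** -/
theorem kakeya_RX (S : Sys ι) (hε : S.ε ≤ 1 / 64) (T : Finset ι)
    (hT : ∀ i ∈ T, S.I i ⊆ Set.Ico (0 : ℝ) 1) (B : ℝ) (κ : ℕ) (hB : B ≤ 2 ^ κ) :
    ∫⁻ p, ENNReal.ofReal ((∑ i ∈ T, (RX S B i).indicator (fun _ => (1 : ℝ)) p) ^ 2) ≤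
      ENNReal.ofReal (2 ^ 33 * 64 ^ κ *
        ((S.A * S.M / S.δ ^ 2) * ∑ i ∈ T, volume.real (S.R i))) := by
  classical
  have hT' : ∀ i ∈ T, (scl S hε).I i ⊆ Set.Ico (0 : ℝ) 1 := by
    intro i hi x hx
    have hx' : 4 * x - 1 ∈ S.I i := (mem_D_ph (S.k i) (S.m i) x).1 hx
    obtain ⟨a, b⟩ := hT i hi hx'
    constructor <;> linarith
  have h := (scl S hε).kakeya_dil κ T hT'
  have hR : ∀ i, volume.real ((scl S hε).R i) = 1 / 4 * volume.real (S.R i) := by
    intro i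
    rw [(scl S hε).vr_R, S.vr_R]
    have h1 : (scl S hε).l i = 1 / 4 * S.l i := by
      show (2 : ℝ)⁻¹ ^ (S.k i + 2) = 1 / 4 * (2 : ℝ)⁻¹ ^ S.k i
      rw [pow_add]; norm_num; ring
    have h2 : (scl S hε).w = S.w := rfl
    rw [h1, h2]; ring
  have hpt : ∀ p, (∑ i ∈ T, (RX S B i).indicator (fun _ => (1 : ℝ)) (ph p)) ≤
      (scl S hε).ND κ T p := by
    intro p
    refine Finset.sum_le_sum fun i hi => ?_
    by_cases hp : ph p ∈ RX S B i
    · have hp' : p ∈ (scl S hε).RD κ i := by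
        obtain ⟨⟨x, hx, hxp⟩, hy⟩ := hp
        have hx1 := hT i hi hx
        have hl := S.l_le_one i
        have hl0 := S.l_pos i
        have h2k : (1 : ℝ) ≤ 2 ^ κ := one_le_pow₀ (by norm_num)
        have hxp' : |4 * p.1 - 1 - x| ≤ S.l i := hxp
        rw [abs_le] at hxp'
        have hDx : (S.m i : ℝ) / 2 ^ S.k i ≤ x ∧ x < ((S.m i : ℝ) + 1) / 2 ^ S.k i := hx
        have hlk : S.l i ≤ 2 ^ κ * S.l i := le_mul_of_one_le_left hl0.le h2k
        have e1 : (((S.m i + 2 ^ S.k i : ℤ) : ℝ)) / 2 ^ (S.k i + 2) =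
            ((S.m i : ℝ) / 2 ^ S.k i + 1) / 4 := by
          rw [pow_add]; push_cast; field_simp; norm_num
        have e2 : (((S.m i + 2 ^ S.k i : ℤ) : ℝ) + 1) / 2 ^ (S.k i + 2) =
            (((S.m i : ℝ) + 1) / 2 ^ S.k i + 1) / 4 := by
          rw [pow_add]; push_cast; field_simp; norm_num; ring
        have e3 : (2 : ℝ)⁻¹ ^ (S.k i + 2) = S.l i / 4 := by
          unfold Sys.l; rw [pow_add]; norm_num; ring
        refine ⟨⟨by linarith [hx1.1], by linarith [hx1.2]⟩, ⟨?_, ?_⟩, ?_⟩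
        · show (((S.m i + 2 ^ S.k i : ℤ) : ℝ)) / 2 ^ (S.k i + 2) -
            2 ^ κ * (2 : ℝ)⁻¹ ^ (S.k i + 2) ≤ p.1
          rw [e1, e3]
          linarith
        · show p.1 < (((S.m i + 2 ^ S.k i : ℤ) : ℝ) + 1) / 2 ^ (S.k i + 2) +
            2 ^ κ * (2 : ℝ)⁻¹ ^ (S.k i + 2)
          rw [e2, e3]
          linarith
        · show |p.2 - (S.b i - S.s i + 4 * S.s i * p.1)| ≤ 2 ^ κ * S.w
          have e4 : S.b i - S.s i + 4 * S.s i * p.1 = S.line i (ph p).1 := by
            simp only [Sys.line, ph]; ring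
          rw [e4]
          exact hy.trans (mul_le_mul_of_nonneg_right hB S.w_pos.le)
      rw [Set.indicator_of_mem hp, Set.indicator_of_mem hp']
    · rw [Set.indicator_of_notMem hp]
      exact Set.indicator_nonneg (fun _ _ => zero_le_one) _
  have hmeas : Measurable fun p : ℝ × ℝ =>
      ENNReal.ofReal ((∑ i ∈ T, (RX S B i).indicator (fun _ => (1 : ℝ)) p) ^ 2) :=
    ((Finset.measurable_sum _ fun i _ =>
      measurable_const.indicator (RX_meas S B i)).pow_const 2).ennreal_ofReal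
  have h3 : ∫⁻ p, ENNReal.ofReal
      ((∑ i ∈ T, (RX S B i).indicator (fun _ => (1 : ℝ)) (ph p)) ^ 2) ≤
      ∫⁻ p, ENNReal.ofReal ((scl S hε).ND κ T p ^ 2) := by
    refine lintegral_mono fun p => ENNReal.ofReal_le_ofReal ?_
    exact pow_le_pow_left₀ (Finset.sum_nonneg fun i _ =>
      Set.indicator_nonneg (fun _ _ => zero_le_one) _) (hpt p) 2
  rw [lint_ph hmeas] at h3
  have h4 := h3.trans h
  have h5 : ∑ i ∈ T, volume.real ((scl S hε).R i) = 1 / 4 * ∑ i ∈ T, volume.real (S.R i) := by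
    rw [Finset.mul_sum]; exact Finset.sum_congr rfl fun i _ => hR i
  have h6 : (2 : ℝ) ^ 33 * 64 ^ κ * (((scl S hε).A * (scl S hε).M / (scl S hε).δ ^ 2) *
      ∑ i ∈ T, volume.real ((scl S hε).R i)) =
      1 / 4 * (2 ^ 33 * 64 ^ κ * ((S.A * S.M / S.δ ^ 2) * ∑ i ∈ T, volume.real (S.R i))) := by
    rw [h5]
    show (2 : ℝ) ^ 33 * 64 ^ κ * ((S.A * S.M / S.δ ^ 2) * _) = _
    ring
  rw [h6, ENNReal.ofReal_mul (by norm_num : (0 : ℝ) ≤ 1 / 4)] at h4
  exact (ENNReal.mul_le_mul_iff_right (by simp) ENNReal.ofReal_ne_top).1 h4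

end Vale.Agent.P112.H158
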