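import Vale.Agent.P112.G.R2
import Vale.Agent.P112.H158.KTX
import Vale.Agent.P112.H724.FD2
import Vale.Agent.P112.T.Basic

/-!
# P112, chapter (G), [LOW]: the low part of the bad part of a weakly separated family
-/

namespace Vale.Agent.P112.H158

open MeasureTheory Set T F30 R2
open scoped ENNReal BigOperators

/-! ### the system of the tops -/

theorem q_iff_D {k : ℕ} {m : ℤ} {x : ℝ} : T.q 0 k x = m ↔ x ∈ H310.D k m := by
  rw [H310.mem_D]; unfold T.q; rw [sub_zero, mul_comm]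

theorem V_meas {u : ℝ × ℝ → ℝ} (hu : Measurable u) {κ : Type} (M : Tops κ) (m : κ) :
    MeasurableSet (M.V u 1 m) := by
  have h1 : MeasurableSet {z : ℝ × ℝ | z.1 ∈ H310.D (M.j m) (T.q 0 (M.j m) (M.x m))} :=
    measurable_fst (H310.measurableSet_D _ _)
  have h2 : MeasurableSet {z : ℝ × ℝ | |z.2 - M.line m z.1| ≤ 1} := by
    apply measurableSet_le _ measurable_const
    unfold Tops.line
    fun_prop
  have h3 : MeasurableSet {z : ℝ × ℝ | |u z - M.s m| ≤ 3 * 2 ^ M.j m} :=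
    measurableSet_le (hu.sub measurable_const).abs measurable_const
  have h4 : M.V u 1 m = {z : ℝ × ℝ | z.1 ∈ H310.D (M.j m) (T.q 0 (M.j m) (M.x m))} ∩
      ({z : ℝ × ℝ | |z.2 - M.line m z.1| ≤ 1} ∩ {z : ℝ × ℝ | |u z - M.s m| ≤ 3 * 2 ^ M.j m}) := by
    ext z
    simp only [Tops.V, mem_ofPred_eq, mem_inter_iff]
    rw [← q_iff_D]
  rw [h4]
  exact h1.inter (h2.inter h3)

/-- the tops as a system of tubes of half width `1` -/
noncomputable def sysT (u : ℝ × ℝ → ℝ) (hu : Measurable u) (e : ℝ) (he0 : 0 ≤ e)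
    (he : e ≤ 1 / 16) (hlip : ∀ x y y', |u (x, y) - u (x, y')| ≤ e * |y - y'|)
    {κ : Type} (M : Tops κ) (C : ℝ) (hC : 1 ≤ C) (ν : ℕ)
    (hov : ∀ z, ∀ F : Finset κ, (∀ m ∈ F, z ∈ M.V u 1 m) → (F.card : ℝ) ≤ C)
    (hd : ∀ m, (1 / 2 : ℝ) ^ (ν + 1) * (1 / 2) ^ M.j m ≤ volume.real (M.V u 1 m)) :
    H310.Sys κ where
  w := 1
  A := 3
  M := C
  δ := (1 / 2) ^ (ν + 2)
  ε := e
  u := fun x y => u (x, y)
  k := M.j
  m := fun m => T.q 0 (M.j m) (M.x m)
  s := M.s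
  b := fun m => M.y m - M.s m * M.x m
  E := M.V u 1
  w_pos := one_pos
  one_le_A := by norm_num
  M_pos := by linarith
  δ_pos := by positivity
  ε_nonneg := he0
  ε_le := he
  u_meas := hu
  u_lip := hlip
  E_meas := fun i => V_meas hu M i
  E_sub := fun i p hp => by
    obtain ⟨h1, h2, -⟩ := hp
    refine ⟨q_iff_D.1 h1, ?_⟩
    have : M.y i - M.s i * M.x i + M.s i * p.1 = M.line i p.1 := by unfold Tops.line; ring
    show |p.2 - (M.y i - M.s i * M.x i + M.s i * p.1)| ≤ 1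
    rw [this]; exact h2
  E_slope := fun i p hp => by
    have h3 := hp.2.2
    have h4 : (3 : ℝ) * 1 / (2 : ℝ)⁻¹ ^ M.j i = 3 * 2 ^ M.j i := by
      rw [inv_pow, div_inv_eq_mul]; ring
    rw [h4]; exact h3
  E_dens := fun i => by
    rw [H310.Sys.vr_Reg (H310.measurableSet_D _ _) (by fun_prop) (by norm_num), H310.Sys.vr_D]
    refine le_trans (le_of_eq ?_) (hd i)
    rw [show (2 : ℝ)⁻¹ = 1 / 2 by norm_num, pow_succ ((1 : ℝ) / 2) (ν + 1)]
    ring
  E_ovl := fun T p => by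
    classical
    have h1 : ∑ i ∈ T, (M.V u 1 i).indicator (fun _ => (1 : ℝ)) p =
        ((T.filter fun i => p ∈ M.V u 1 i).card : ℝ) := by
      rw [Finset.card_filter]; push_cast
      exact Finset.sum_congr rfl fun i _ => by
        by_cases h : p ∈ M.V u 1 i <;> simp [h]
    rw [h1]
    exact hov p _ fun m hm => (Finset.mem_filter.1 hm).2

/-! ### single scale bound -/

theorem S_le {M : ℕ} (κ : Ker M) {C0 : ℝ} (hC0 : 0 ≤ C0)
    (hk : ∀ (j : ℕ) (v : ℝ) (z ζ : ℝ × ℝ), |κ.k j v z ζ| ≤ C0 * 2 ^ j) (u : ℝ × ℝ → ℝ) (j : ℕ)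
    (g : ℝ × ℝ → ℝ) (hg : ∀ z, |g z| ≤ 1) (X : Set (ℝ × ℝ)) (ζ : ℝ × ℝ) {a : ℝ} (ha : 0 ≤ a)
    (hv : volume {z | z ∈ X ∧ Over u j z ζ} ≤ ENNReal.ofReal (a / 2 ^ j)) :
    |κ.S u j (X.indicator g) ζ| ≤ C0 * a := by
  have h2 : (0 : ℝ) < 2 ^ j := by positivity
  have h1 : ‖κ.S u j (X.indicator g) ζ‖ₑ ≤ ENNReal.ofReal (C0 * a) := by
    unfold Ker.S
    calc ‖∫ z, κ.k j (u z) z ζ * X.indicator g z‖ₑ
        ≤ ∫⁻ z, ‖κ.k j (u z) z ζ * X.indicator g z‖ₑ := enorm_integral_le_lintegral_enorm _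
      _ ≤ ∫⁻ z, ({z | z ∈ X ∧ Over u j z ζ}).indicator
            (fun _ => ENNReal.ofReal (C0 * 2 ^ j)) z := by
          refine lintegral_mono fun z => ?_
          by_cases hz : z ∈ {z | z ∈ X ∧ Over u j z ζ}
          · rw [indicator_of_mem hz, Real.enorm_eq_ofReal_abs]
            apply ENNReal.ofReal_le_ofReal
            rw [abs_mul, indicator_of_mem hz.1]
            calc |κ.k j (u z) z ζ| * |g z| ≤ C0 * 2 ^ j * 1 :=
                  mul_le_mul (hk _ _ _ _) (hg z) (abs_nonneg _) (by positivity)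
              _ = _ := mul_one _
          · rw [indicator_of_notMem hz]
            have : κ.k j (u z) z ζ * X.indicator g z = 0 := by
              by_cases hX : z ∈ X
              · have : κ.k j (u z) z ζ = 0 := by
                  by_contra hne
                  exact hz ⟨hX, κ.k_supp hne⟩
                rw [this, zero_mul]
              · rw [indicator_of_notMem hX, mul_zero]
            rw [this]; simp
      _ ≤ ENNReal.ofReal (C0 * 2 ^ j) * volume {z | z ∈ X ∧ Over u j z ζ} :=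
          lintegral_indicator_const_le _ _
      _ ≤ ENNReal.ofReal (C0 * 2 ^ j) * ENNReal.ofReal (a / 2 ^ j) := by gcongr
      _ = ENNReal.ofReal (C0 * a) := by
          rw [← ENNReal.ofReal_mul (by positivity)]
          congr 1
          field_simp
  rw [Real.enorm_eq_ofReal_abs] at h1
  exact (ENNReal.ofReal_le_ofReal_iff (by positivity)).1 h1

theorem S_eq_zero {M : ℕ} (κ : Ker M) (u : ℝ × ℝ → ℝ) (j : ℕ)
    (g : ℝ × ℝ → ℝ) (X : Set (ℝ × ℝ)) (ζ : ℝ × ℝ) (h : ¬ ∃ z ∈ X, Over u j z ζ) :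
    κ.S u j (X.indicator g) ζ = 0 := by
  unfold Ker.S
  have : ∀ z, κ.k j (u z) z ζ * X.indicator g z = 0 := by
    intro z
    by_cases hX : z ∈ X
    · have : κ.k j (u z) z ζ = 0 := by
        by_contra hne
        exact h ⟨z, hX, κ.k_supp hne⟩
      rw [this, zero_mul]
    · rw [indicator_of_notMem hX, mul_zero]
  simp [this]

/-- The sum of the scales of one tree at one target. -/
theorem FS_le {M : ℕ} (κ : Ker M) {C0 : ℝ} (hC0 : 0 ≤ C0)
    (hk : ∀ (j : ℕ) (v : ℝ) (z ζ : ℝ × ℝ), |κ.k j v z ζ| ≤ C0 * 2 ^ j) (u : ℝ × ℝ → ℝ) (n : ℕ)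
    (g : ℝ × ℝ → ℝ) (hg : ∀ z, |g z| ≤ 1) (E : ℕ → Set (ℝ × ℝ)) (ζ : ℝ × ℝ) {a W : ℝ}
    (ha : 0 ≤ a) (hW : 0 ≤ W)
    (hv : ∀ j, volume {z | z ∈ E j ∧ Over u j z ζ} ≤ ENNReal.ofReal (a / 2 ^ j))
    (hwin : ∀ j j' z z', z ∈ E j → z' ∈ E j' → Over u j z ζ → Over u j' z' ζ → j' ≤ j →
      (j : ℝ) ≤ j' + W) :
    |κ.FS u g E n ζ| ≤ C0 * a * (W + 1) ∧
      ((¬ ∃ j < n, ∃ z ∈ E j, Over u j z ζ) → κ.FS u g E n ζ = 0) := by
  classical
  constructor
  · unfold Ker.FS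
    set s := (Finset.range n).filter fun j => ∃ z ∈ E j, Over u j z ζ with hs
    have h1 : ∑ j ∈ Finset.range n, κ.S u j ((E j).indicator g) ζ =
        ∑ j ∈ s, κ.S u j ((E j).indicator g) ζ := by
      symm
      apply Finset.sum_subset (Finset.filter_subset _ _)
      intro j hj hjs
      apply S_eq_zero
      intro h
      exact hjs (Finset.mem_filter.2 ⟨hj, h⟩)
    rw [h1]
    have h2 : |∑ j ∈ s, κ.S u j ((E j).indicator g) ζ| ≤ s.card * (C0 * a) := by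
      refine (Finset.abs_sum_le_sum_abs _ _).trans ?_
      calc ∑ j ∈ s, |κ.S u j ((E j).indicator g) ζ| ≤ ∑ j ∈ s, C0 * a :=
            Finset.sum_le_sum fun j _ => S_le κ hC0 hk u j g hg (E j) ζ ha (hv j)
        _ = s.card * (C0 * a) := by rw [Finset.sum_const, nsmul_eq_mul]
    refine h2.trans ?_
    have h3 : (s.card : ℝ) ≤ W + 1 := by
      rcases s.eq_empty_or_nonempty with h0 | hne
      · rw [h0]; simp; linarith
      · set j0 := s.min' hne with hj0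
        have h4 : s ⊆ Finset.Icc j0 (j0 + ⌊W⌋₊) := by
          intro j hj
          have h5 := (Finset.mem_filter.1 hj).2
          have h6 := (Finset.mem_filter.1 (s.min'_mem hne)).2
          obtain ⟨z, hz, hzo⟩ := h5
          obtain ⟨z', hz', hzo'⟩ := h6
          have h7 : j0 ≤ j := s.min'_le j hj
          have h8 := hwin j j0 z z' hz hz' hzo hzo' h7
          rw [Finset.mem_Icc]
          refine ⟨h7, ?_⟩
          have h9 : ((j - j0 : ℕ) : ℝ) ≤ W := by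
            rw [Nat.cast_sub h7]; linarith
          have h10 : j - j0 ≤ ⌊W⌋₊ := Nat.le_floor h9
          omega
        have h5 := Finset.card_le_card h4
        rw [Nat.card_Icc] at h5
        have h6 : s.card ≤ ⌊W⌋₊ + 1 := by omega
        have h7 : (⌊W⌋₊ : ℝ) ≤ W := Nat.floor_le hW
        have h8 : (s.card : ℝ) ≤ (⌊W⌋₊ : ℝ) + 1 := by exact_mod_cast h6
        linarith
    calc (s.card : ℝ) * (C0 * a) ≤ (W + 1) * (C0 * a) := by
          apply mul_le_mul_of_nonneg_right h3 (by positivity)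
      _ = _ := by ring
  · intro h
    unfold Ker.FS
    apply Finset.sum_eq_zero
    intro j hj
    apply S_eq_zero
    intro h'
    exact h ⟨j, Finset.mem_range.1 hj, h'⟩

/-! ### geometry of the weakly separated families -/

theorem q_same {τ : ℝ} {l : ℕ} {x y : ℝ} (h : T.q τ l x = T.q τ l y) : 2 ^ l * |x - y| < 1 := by
  unfold T.q at h
  have h1 := Int.floor_le (2 ^ l * (x - τ))
  have h2 := Int.lt_floor_add_one (2 ^ l * (x - τ))
  have h3 := Int.floor_le (2 ^ l * (y - τ))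
  have h4 := Int.lt_floor_add_one (2 ^ l * (y - τ))
  rw [h] at h1 h2
  have h5 : (2 : ℝ) ^ l * |x - y| = |2 ^ l * (x - τ) - 2 ^ l * (y - τ)| := by
    rw [← mul_sub, abs_mul, abs_of_pos (by positivity : (0 : ℝ) < 2 ^ l)]
    congr 2; ring
  rw [h5, abs_lt]
  constructor <;> linarith

theorem lev_le {τ : ℝ} {l j : ℕ} {m : ℤ} {x c : ℝ} (hc : 1 ≤ c)
    (h : ∀ y : ℝ, |y - x| ≤ c / 2 ^ j → T.q τ l y = m) : l ≤ j := by
  have h2j : (0 : ℝ) < 2 ^ j := by positivity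
  have h1 := h x (by rw [sub_self, abs_zero]; positivity)
  have h2 := h (x + c / 2 ^ j) (by
    rw [add_sub_cancel_left, abs_of_nonneg (by positivity)])
  have h3 := q_same (h2.trans h1.symm)
  rw [add_sub_cancel_left, abs_of_nonneg (by positivity)] at h3
  by_contra hlt
  rw [not_le] at hlt
  have h4 : (2 : ℝ) ^ j ≤ 2 ^ l := pow_le_pow_right₀ (by norm_num) hlt.le
  have h5 : (1 : ℝ) ≤ 2 ^ l * (c / 2 ^ j) := by
    rw [mul_div_assoc', le_div_iff₀ h2j]
    nlinarith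
  linarith

section Geo

variable {u : ℝ × ℝ → ℝ} {P : ℕ → Set (ℝ × ℝ)} {F : Tr} {G : Cells F} {A H Q : ℝ}

/-- the window of the bad pairs -/
theorem window (hA : 1 ≤ A) (hAQ : A ≤ Q) (hQ : Q ≤ H) (hok : F.Ok u P A (H / 2))
    (hs : G.Sep0 u A (32 * H))
    {i : F.ι} {j j' : ℕ} {z z' : ℝ × ℝ} (hz : z ∈ (G.bad Q H).E i j)
    (hz' : z' ∈ (G.bad Q H).E i j') (hj : j' ≤ j) (hx : |z.1 - z'.1| ≤ 4 / 2 ^ j') :
    (2 : ℝ) ^ j ≤ Q * 2 ^ j' := by
  obtain ⟨hzE, -⟩ := hz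
  obtain ⟨hzE', i', hne, hcell, hoff, hsl⟩ := hz'
  have h2j : (0 : ℝ) < 2 ^ j := by positivity
  have h2j' : (0 : ℝ) < 2 ^ j' := by positivity
  have hlev : G.lev i' ≤ j' := lev_le (by norm_num) hcell
  have hq : T.q G.τ (G.lev i') z.1 = G.m i' := hcell _ (hx.trans (by gcongr; norm_num))
  have h1 := hok.line i j z hzE
  have h2 := hok.line i j' z' hzE'
  have h3 := hok.slope i j z hzE
  have e1 : F.off i' z = F.off i' z' + (F.off i z - F.off i z') +
      (F.s i - F.s i') * (z.1 - z'.1) := by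
    unfold Tr.off; ring
  have h4 : |(F.s i - F.s i') * (z.1 - z'.1)| ≤ 4 * Q := by
    rw [abs_mul]
    calc |F.s i - F.s i'| * |z.1 - z'.1| ≤ (Q * 2 ^ j') * (4 / 2 ^ j') :=
          mul_le_mul hsl.le hx (abs_nonneg _) ((abs_nonneg _).trans hsl.le)
      _ = 4 * Q := by field_simp
  have h5 : |F.off i' z| ≤ 32 * H := by
    rw [e1]
    have h6 := abs_add_le (F.off i' z' + (F.off i z - F.off i z'))
      ((F.s i - F.s i') * (z.1 - z'.1))
    have h7 := abs_add_le (F.off i' z') (F.off i z - F.off i z')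
    have h8 := abs_sub (F.off i z) (F.off i z')
    have h9 := abs_nonneg (F.off i z)
    linarith
  have h6 := hs i i' j hne.symm (hlev.trans hj) z hzE hq h5
  have h7 : |u z - F.s i'| ≤ |u z - F.s i| + |F.s i - F.s i'| := abs_sub_le _ _ _
  have h8 : 60 * A * 2 ^ j ≤ A * 2 ^ j + Q * 2 ^ j' := by linarith
  have h9 : (2 : ℝ) ^ j ≤ A * 2 ^ j := le_mul_of_one_le_left h2j.le hA
  linarith

/-- different trees seen from one target have different slopes at the sources -/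
theorem sepz (hA : 1 ≤ A) (hAh : A ≤ H) (hok : F.Ok u P A (H / 2)) (hm : G.Marg)
    (hs : G.Sep0 u A (32 * H))
    {i i' : F.ι} {j j' : ℕ} {z z' ζ : ℝ × ℝ} (hne : i ≠ i') (hz : z ∈ F.E i j)
    (hz' : z' ∈ F.E i' j') (hj : j' ≤ j) (ho : Over u j z ζ) (ho' : Over u j' z' ζ) :
    60 * A * 2 ^ j ≤ |u z - F.s i'| := by
  by_contra hcon
  rw [not_le] at hcon
  have h2j : (0 : ℝ) < 2 ^ j := by positivity
  have h2j' : (0 : ℝ) < 2 ^ j' := by positivity
  have hmi := hm i' j' z' hz'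
  have hlev : G.lev i' ≤ j' := lev_le (by norm_num) hmi
  have h1 : 1 / (8 * (2 : ℝ) ^ j) ≤ 1 / (8 * 2 ^ j') := by
    apply one_div_le_one_div_of_le (by positivity)
    have : (2 : ℝ) ^ j' ≤ 2 ^ j := pow_le_pow_right₀ (by norm_num) hj
    linarith
  have h2 : |z.1 - z'.1| ≤ 16 / 2 ^ j' := by
    have h3 : |z.1 - z'.1| ≤ |z.1 - ζ.1| + |z'.1 - ζ.1| := by
      have := abs_sub (z.1 - ζ.1) (z'.1 - ζ.1)
      simpa using this
    have h4 : 1 / (8 * (2 : ℝ) ^ j') + 1 / (8 * 2 ^ j') ≤ 16 / 2 ^ j' := by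
      rw [← add_div, div_le_div_iff₀ (by positivity) h2j']
      nlinarith
    have := ho.1
    have := ho'.1
    linarith
  have hq := hmi z.1 h2
  have h5 := hok.line i' j' z' hz'
  have h6 := hok.slope i' j' z' hz'
  have e1 : F.off i' z = F.off i' z' + (z.2 - ζ.2 - (z.1 - ζ.1) * u z) +
      (z.1 - ζ.1) * (u z - F.s i') - (z'.2 - ζ.2 - (z'.1 - ζ.1) * u z') -
      (z'.1 - ζ.1) * (u z' - F.s i') := by
    unfold Tr.off; ring
  have h7 : |(z.1 - ζ.1) * (u z - F.s i')| ≤ 15 / 2 * A := by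
    rw [abs_mul]
    calc |z.1 - ζ.1| * |u z - F.s i'| ≤ (1 / (8 * 2 ^ j)) * (60 * A * 2 ^ j) :=
          mul_le_mul ho.1 hcon.le (abs_nonneg _) (by positivity)
      _ = 15 / 2 * A := by field_simp; norm_num
  have h8 : |(z'.1 - ζ.1) * (u z' - F.s i')| ≤ 1 / 8 * A := by
    rw [abs_mul]
    calc |z'.1 - ζ.1| * |u z' - F.s i'| ≤ (1 / (8 * 2 ^ j')) * (A * 2 ^ j') :=
          mul_le_mul ho'.1 h6 (abs_nonneg _) (by positivity)
      _ = 1 / 8 * A := by field_simp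
  have h9 : |F.off i' z| ≤ 32 * H := by
    rw [e1]
    have a1 := ho.2
    have a2 := ho'.2
    rw [abs_le] at *
    constructor <;> linarith [h5.1, h5.2, a1.1, a1.2, a2.1, a2.2, h7.1, h7.2, h8.1, h8.2]
  have h10 := hs i i' j hne (hlev.trans hj) z hz hq h9
  linarith

/-- the part of a low set seen from one target -/
theorem low_vol (F : Tr) {δ : ℝ} (hδ : 0 ≤ δ) (hA : 1 ≤ A) (i : F.ι) (j : ℕ)
    (hsl : ∀ z ∈ F.E i j, |u z - F.s i| ≤ A * 2 ^ j) (ζ : ℝ × ℝ) :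
    volume {z | z ∈ (F.low δ).E i j ∧ Over u j z ζ} ≤
      ENNReal.ofReal (16 * A * δ / 2 ^ j) := by
  classical
  have h2j : (0 : ℝ) < 2 ^ j := by positivity
  set q0 : ℤ := T.q 0 j ζ.1 with hq0
  set b0 : ℤ := ⌊F.off i ζ⌋ with hb0
  set N : ℤ := ⌊A / 8⌋ + 2 with hN
  have hN0 : 0 ≤ N := by
    have : 0 ≤ ⌊A / 8⌋ := Int.floor_nonneg.2 (by positivity)
    omega
  -- the classes
  have hcov : {z | z ∈ (F.low δ).E i j ∧ Over u j z ζ} ⊆
      ⋃ a ∈ Finset.Icc (q0 - 1) (q0 + 1), ⋃ b ∈ Finset.Icc (b0 - N) (b0 + N),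
        {z | z ∈ (F.low δ).E i j ∧ T.q 0 j z.1 = a ∧ ⌊F.off i z⌋ = b} := by
    rintro z ⟨hz, ho⟩
    simp only [mem_iUnion]
    refine ⟨T.q 0 j z.1, ?_, ⌊F.off i z⌋, ?_, hz, rfl, rfl⟩
    · have h1 : |2 ^ j * (z.1 - 0) - 2 ^ j * (ζ.1 - 0)| ≤ 1 := by
        rw [← mul_sub, abs_mul, abs_of_pos h2j, sub_zero, sub_zero]
        calc 2 ^ j * |z.1 - ζ.1| ≤ 2 ^ j * (1 / (8 * 2 ^ j)) := by
              apply mul_le_mul_of_nonneg_left ho.1 h2j.le
          _ ≤ 1 := by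
              rw [mul_one_div, div_le_one (by positivity)]; linarith
      rw [abs_le] at h1
      have h3 := Int.floor_le ((2 : ℝ) ^ j * (z.1 - 0))
      have h4 := Int.lt_floor_add_one ((2 : ℝ) ^ j * (z.1 - 0))
      have h5 := Int.floor_le ((2 : ℝ) ^ j * (ζ.1 - 0))
      have h6 := Int.lt_floor_add_one ((2 : ℝ) ^ j * (ζ.1 - 0))
      rw [Finset.mem_Icc, hq0]
      unfold T.q
      constructor
      · have : ((⌊(2 : ℝ) ^ j * (ζ.1 - 0)⌋ : ℤ) : ℝ) < ⌊(2 : ℝ) ^ j * (z.1 - 0)⌋ + 1 + 1 := by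
          linarith [h1.1]
        have h7 : ⌊(2 : ℝ) ^ j * (ζ.1 - 0)⌋ < ⌊(2 : ℝ) ^ j * (z.1 - 0)⌋ + 1 + 1 := by
          exact_mod_cast this
        omega
      · have : ((⌊(2 : ℝ) ^ j * (z.1 - 0)⌋ : ℤ) : ℝ) < ⌊(2 : ℝ) ^ j * (ζ.1 - 0)⌋ + 1 + 1 := by
          linarith [h1.2]
        have h7 : ⌊(2 : ℝ) ^ j * (z.1 - 0)⌋ < ⌊(2 : ℝ) ^ j * (ζ.1 - 0)⌋ + 1 + 1 := by
          exact_mod_cast this
        omega
    · have h1 := hsl z hz.1
      have e1 : F.off i z - F.off i ζ = (z.2 - ζ.2 - (z.1 - ζ.1) * u z) +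
          (z.1 - ζ.1) * (u z - F.s i) := by
        unfold Tr.off; ring
      have h2 : |(z.1 - ζ.1) * (u z - F.s i)| ≤ A / 8 := by
        rw [abs_mul]
        calc |z.1 - ζ.1| * |u z - F.s i| ≤ (1 / (8 * 2 ^ j)) * (A * 2 ^ j) :=
              mul_le_mul ho.1 h1 (abs_nonneg _) (by positivity)
          _ = A / 8 := by field_simp
      have h3 : |F.off i z - F.off i ζ| ≤ 1 + A / 8 := by
        rw [e1]
        exact (abs_add_le _ _).trans (add_le_add ho.2 h2)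
      rw [abs_le] at h3
      have f1 := Int.floor_le (F.off i z)
      have f2 := Int.lt_floor_add_one (F.off i z)
      have f3 := Int.floor_le (F.off i ζ)
      have f4 := Int.lt_floor_add_one (F.off i ζ)
      have f5 := Int.lt_floor_add_one (A / 8)
      rw [Finset.mem_Icc]
      constructor
      · have h7 : ((b0 : ℤ) : ℝ) < ⌊F.off i z⌋ + N + 1 := by
          rw [hb0, hN]; push_cast; linarith [h3.1]
        have h8 : b0 < ⌊F.off i z⌋ + N + 1 := by exact_mod_cast h7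
        omega
      · have h7 : ((⌊F.off i z⌋ : ℤ) : ℝ) < b0 + N + 1 := by
          rw [hb0, hN]; push_cast; linarith [h3.2]
        have h8 : ⌊F.off i z⌋ < b0 + N + 1 := by exact_mod_cast h7
        omega
  have hone : ∀ a b : ℤ, volume {z | z ∈ (F.low δ).E i j ∧ T.q 0 j z.1 = a ∧
      ⌊F.off i z⌋ = b} ≤ ENNReal.ofReal (δ / 2 ^ j) := by
    intro a b
    rcases Set.eq_empty_or_nonempty {z | z ∈ (F.low δ).E i j ∧ T.q 0 j z.1 = a ∧
      ⌊F.off i z⌋ = b} with h0 | ⟨z0, hz0, h1, h2⟩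
    · rw [h0]; simp
    · refine le_trans (measure_mono ?_) hz0.2.le
      rintro z ⟨hz, h3, h4⟩
      exact ⟨hz.1, h3.trans h1.symm, h4.trans h2.symm⟩
  calc volume {z | z ∈ (F.low δ).E i j ∧ Over u j z ζ}
      ≤ ∑ a ∈ Finset.Icc (q0 - 1) (q0 + 1), volume (⋃ b ∈ Finset.Icc (b0 - N) (b0 + N),
        {z | z ∈ (F.low δ).E i j ∧ T.q 0 j z.1 = a ∧ ⌊F.off i z⌋ = b}) :=
        (measure_mono hcov).trans (measure_biUnion_finset_le _ _)
    _ ≤ ∑ a ∈ Finset.Icc (q0 - 1) (q0 + 1), ∑ b ∈ Finset.Icc (b0 - N) (b0 + N),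
          ENNReal.ofReal (δ / 2 ^ j) :=
        Finset.sum_le_sum fun a _ => (measure_biUnion_finset_le _ _).trans
          (Finset.sum_le_sum fun b _ => hone a b)
    _ = ENNReal.ofReal (3 * (2 * N + 1) * (δ / 2 ^ j)) := by
        rw [Finset.sum_const, Finset.sum_const, Int.card_Icc, Int.card_Icc, nsmul_eq_mul,
          nsmul_eq_mul, ENNReal.ofReal_mul (by positivity), ENNReal.ofReal_mul (by norm_num)]
        have e1 : (q0 + 1 + 1 - (q0 - 1)).toNat = 3 := by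
          have : q0 + 1 + 1 - (q0 - 1) = 3 := by ring
          rw [this]; rfl
        have e2 : (((b0 + N + 1 - (b0 - N)).toNat : ℕ) : ℝ≥0∞) =
            ENNReal.ofReal (2 * N + 1) := by
          have h3 : b0 + N + 1 - (b0 - N) = 2 * N + 1 := by ring
          rw [h3, ← ENNReal.ofReal_natCast]
          congr 1
          have h4 : ((2 * N + 1).toNat : ℤ) = 2 * N + 1 := Int.toNat_of_nonneg (by omega)
          have h5 : (((2 * N + 1).toNat : ℤ) : ℝ) = ((2 * N + 1 : ℤ) : ℝ) := by rw [h4]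
          rw [Int.cast_natCast] at h5
          rw [h5]; push_cast; ring
        rw [e1, e2, mul_assoc]
        congr 1
        simp
    _ ≤ ENNReal.ofReal (16 * A * δ / 2 ^ j) := by
        apply ENNReal.ofReal_le_ofReal
        have h1 : (N : ℝ) ≤ A / 8 + 2 := by
          rw [hN]; push_cast
          linarith [Int.floor_le (A / 8)]
        have h2 : 3 * (2 * (N : ℝ) + 1) ≤ 16 * A := by linarith
        calc 3 * (2 * (N : ℝ) + 1) * (δ / 2 ^ j) ≤ 16 * A * (δ / 2 ^ j) := by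
              apply mul_le_mul_of_nonneg_right h2 (by positivity)
          _ = _ := by ring

end Geo

/-! ### the main estimate -/

theorem meas_supp {g : ℝ × ℝ → ℝ} (hg : Nice g) : MeasurableSet {z | g z ≠ 0} := by
  have h3 : {z | g z ≠ 0} = (g ⁻¹' {0})ᶜ := by ext z; simp
  rw [h3]
  exact (hg.meas (measurableSet_singleton 0)).compl

theorem bdd_supp {g : ℝ × ℝ → ℝ} (hg : Nice g) :
    ∃ r : ℝ, ∀ z ∈ {z | g z ≠ 0}, |z.1| ≤ r ∧ |z.2| ≤ r := by
  obtain ⟨r, hr⟩ := hg.supp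
  refine ⟨r, fun z hz => ?_⟩
  by_contra hc
  apply hz
  apply hr
  by_contra hn
  push Not at hn
  exact hc ⟨hn.1.le, hn.2.le⟩

theorem vol_bdd {E : Set (ℝ × ℝ)} (h : ∃ r : ℝ, ∀ z ∈ E, |z.1| ≤ r ∧ |z.2| ≤ r) :
    volume E ≠ ∞ := by
  obtain ⟨r, hr⟩ := h
  have hsub : E ⊆ Icc (-r) r ×ˢ Icc (-r) r := fun z hz => by
    obtain ⟨h1, h2⟩ := hr z hz
    exact ⟨abs_le.1 h1, abs_le.1 h2⟩
  refine ne_top_of_le_ne_top ?_ (measure_mono hsub)
  rw [Measure.volume_eq_prod, Measure.prod_prod]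
  exact ENNReal.mul_ne_top (by simp) (by simp)

theorem V_sub_Reg (u : ℝ × ℝ → ℝ) {κ : Type} (M : Tops κ) (m : κ) :
    M.V u 1 m ⊆ H310.Reg (H310.D (M.j m) (T.q 0 (M.j m) (M.x m))) (M.line m) 1 := by
  rintro z ⟨h1, h2, -⟩
  exact ⟨q_iff_D.1 h1, h2⟩

theorem line_meas {κ : Type} (M : Tops κ) (m : κ) : Measurable (M.line m) := by
  unfold Tops.line; fun_prop

/-- The Kakeya estimate for the dense tops: `N` = number of dilated tops over a point. -/
theorem tops_kakeya {e : ℝ} (he : e ≤ 1 / 64) {u : ℝ × ℝ → ℝ} (hu : Field u)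
    (hlip : ∀ x y y', |u (x, y) - u (x, y')| ≤ e * |y - y'|) {E : Set (ℝ × ℝ)}
    (hb : ∃ r : ℝ, ∀ z ∈ E, |z.1| ≤ r ∧ |z.2| ≤ r) (hx : ∀ z ∈ E, z.1 ∈ Ico (0 : ℝ) 1)
    (ν : ℕ) {κ : Type} [Fintype κ] (M : Tops κ) {C : ℝ} (hC : 1 ≤ C)
    (h1 : ENNReal.ofReal (∑ m, (1 / 2) ^ M.j m) ≤ ENNReal.ofReal (2 ^ (ν + 1)) * volume E)
    (h2 : ∀ z, ∀ F : Finset κ, (∀ m ∈ F, z ∈ M.V u 1 m) → (F.card : ℝ) ≤ C)
    (h3 : ∀ m, ∃ d : ℕ × ℤ × ℤ × ℤ, d.1 = M.j m ∧ Et u E d ⊆ M.V u 1 m ∧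
      ENNReal.ofReal ((1 / 2) ^ (ν + 1) * (1 / 2) ^ M.j m) ≤ volume (Et u E d))
    {B : ℝ} (k : ℕ) (hk : B ≤ 2 ^ k) :
    ∃ Rs : κ → Set (ℝ × ℝ), (∀ m, MeasurableSet (Rs m)) ∧
      (∀ (m : κ) (z ζ : ℝ × ℝ), T.q 0 (M.j m) z.1 = T.q 0 (M.j m) (M.x m) → |ζ.1 - z.1| ≤ 1 / 2 ^ M.j m →
        |ζ.2 - M.line m ζ.1| ≤ B → ζ ∈ Rs m) ∧
      ∫⁻ p, ENNReal.ofReal ((∑ m, (Rs m).indicator (fun _ => (1 : ℝ)) p) ^ 2) ≤
        ENNReal.ofReal (2 ^ 33 * 64 ^ k * (192 * C * (2 ^ ν) ^ 3) * (volume E).toReal) := by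
  classical
  have he0 : 0 ≤ e := by
    have := hlip 0 0 1
    norm_num at this
    exact (abs_nonneg _).trans this
  have hfin := vol_bdd hb
  have hVfin : ∀ m, volume (M.V u 1 m) ≠ ∞ := fun m =>
    ne_top_of_le_ne_top (H310.Sys.volR_ne_top (H310.measurableSet_D _ _)
      (H310.Sys.vol_D_ne_top _ _) (line_meas M m) 1) (measure_mono (V_sub_Reg u M m))
  have hd : ∀ m, (1 / 2 : ℝ) ^ (ν + 1) * (1 / 2) ^ M.j m ≤ volume.real (M.V u 1 m) := by
    intro m
    obtain ⟨d, -, hd2, hd3⟩ := h3 m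
    rw [Measure.real, ← ENNReal.ofReal_le_iff_le_toReal (hVfin m)]
    exact hd3.trans (measure_mono hd2)
  set S := sysT u hu.meas e he0 (by linarith) hlip M C hC ν h2 hd with hS
  refine ⟨fun m => RX S B m, fun m => RX_meas S B m, ?_, ?_⟩
  · intro m z ζ hz hzζ hζ
    refine ⟨⟨z.1, q_iff_D.1 hz, ?_⟩, ?_⟩
    · show |ζ.1 - z.1| ≤ (2 : ℝ)⁻¹ ^ M.j m
      rw [inv_pow, ← one_div]; exact hzζ
    · show |ζ.2 - (M.y m - M.s m * M.x m + M.s m * ζ.1)| ≤ B * 1
      have : M.y m - M.s m * M.x m + M.s m * ζ.1 = M.line m ζ.1 := by unfold Tops.line; ring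
      rw [this, mul_one]; exact hζ
  · have hI : ∀ m ∈ (Finset.univ : Finset κ), S.I m ⊆ Ico (0 : ℝ) 1 := by
      intro m _
      obtain ⟨d, -, hd2, hd3⟩ := h3 m
      have hne : (Et u E d).Nonempty := by
        by_contra h0
        rw [not_nonempty_iff_eq_empty] at h0
        rw [h0, measure_empty, nonpos_iff_eq_zero, ENNReal.ofReal_eq_zero] at hd3
        have : (0 : ℝ) < (1 / 2) ^ (ν + 1) * (1 / 2) ^ M.j m := by positivity
        linarith
      obtain ⟨z, hz⟩ := hne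
      have hz1 : z.1 ∈ Ico (0 : ℝ) 1 := hx z hz.1
      have hz2 : z.1 ∈ H310.D (M.j m) (T.q 0 (M.j m) (M.x m)) := q_iff_D.1 (hd2 hz).1
      have hz3 : z.1 ∈ H310.D 0 0 := by
        unfold H310.D
        simpa using hz1
      have h4 := H310.D_subset_of_mem (Nat.zero_le _) hz2 hz3
      intro x hx
      have h5 := h4 hx
      unfold H310.D at h5
      simpa using h5
    have h4 := kakeya_RX S he Finset.univ hI B k hk
    refine h4.trans (ENNReal.ofReal_le_ofReal ?_)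
    have h5 : ∑ m, (1 / 2 : ℝ) ^ M.j m ≤ 2 ^ (ν + 1) * (volume E).toReal := by
      have h6 : ENNReal.ofReal (2 ^ (ν + 1)) * volume E =
          ENNReal.ofReal (2 ^ (ν + 1) * (volume E).toReal) := by
        rw [ENNReal.ofReal_mul (by positivity), ENNReal.ofReal_toReal hfin]
      rw [h6] at h1
      exact (ENNReal.ofReal_le_ofReal_iff (by positivity)).1 h1
    have h6 : ∑ m, volume.real (S.R m) = 2 * ∑ m, (1 / 2 : ℝ) ^ M.j m := by
      rw [Finset.mul_sum]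
      refine Finset.sum_congr rfl fun m _ => ?_
      rw [S.vr_R]
      show (2 : ℝ)⁻¹ ^ M.j m * (2 * 1) = _
      rw [show (2 : ℝ)⁻¹ = 1 / 2 by norm_num]; ring
    rw [h6]
    show (2 : ℝ) ^ 33 * 64 ^ k * (3 * C / ((1 / 2) ^ (ν + 2)) ^ 2 * _) ≤ _
    have h7 : 3 * C / (((1 : ℝ) / 2) ^ (ν + 2)) ^ 2 = 48 * C * (2 ^ ν) ^ 2 := by
      rw [one_div, inv_pow, inv_pow, div_inv_eq_mul, pow_add]; ring
    rw [h7]
    calc (2 : ℝ) ^ 33 * 64 ^ k * (48 * C * (2 ^ ν) ^ 2 * (2 * ∑ m, (1 / 2 : ℝ) ^ M.j m))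
        ≤ (2 : ℝ) ^ 33 * 64 ^ k * (48 * C * (2 ^ ν) ^ 2 *
            (2 * (2 ^ (ν + 1) * (volume E).toReal))) := by gcongr
      _ = 2 ^ 33 * 64 ^ k * (192 * C * (2 ^ ν) ^ 3) * (volume E).toReal := by
          rw [pow_succ]; ring

/-- a real square integral from a pointwise bound by a function with known `L²` norm -/
theorem int_le_of_pt {f N : ℝ × ℝ → ℝ} {c K : ℝ} (hK : 0 ≤ K)
    (h : ∀ p, |f p| ≤ c * N p)
    (hN : ∫⁻ p, ENNReal.ofReal (N p ^ 2) ≤ ENNReal.ofReal K) :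
    ∫ p, f p ^ 2 ≤ c ^ 2 * K := by
  by_cases hi : Integrable fun p => f p ^ 2
  · rw [integral_eq_lintegral_of_nonneg_ae (Filter.Eventually.of_forall fun p => sq_nonneg _)
      hi.aestronglyMeasurable]
    refine ENNReal.toReal_le_of_le_ofReal (by positivity) ?_
    calc ∫⁻ p, ENNReal.ofReal (f p ^ 2)
        ≤ ∫⁻ p, ENNReal.ofReal (c ^ 2) * ENNReal.ofReal (N p ^ 2) := by
          refine lintegral_mono fun p => ?_
          rw [← ENNReal.ofReal_mul (sq_nonneg _), ← mul_pow]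
          apply ENNReal.ofReal_le_ofReal
          rw [← sq_abs]
          exact pow_le_pow_left₀ (abs_nonneg _) (h p) 2
      _ = ENNReal.ofReal (c ^ 2) * ∫⁻ p, ENNReal.ofReal (N p ^ 2) :=
          lintegral_const_mul' _ _ ENNReal.ofReal_ne_top
      _ ≤ ENNReal.ofReal (c ^ 2) * ENNReal.ofReal K := by gcongr
      _ = ENNReal.ofReal (c ^ 2 * K) := by rw [← ENNReal.ofReal_mul (sq_nonneg _)]
  · rw [integral_undef hi]; positivity

theorem exists_pow {x : ℝ} (hx : 1 ≤ x) : ∃ k : ℕ, x ≤ 2 ^ k ∧ (2 : ℝ) ^ k ≤ 2 * x := by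
  have hex : ∃ k : ℕ, x ≤ 2 ^ k := by
    obtain ⟨k, hk⟩ := pow_unbounded_of_one_lt x (by norm_num : (1 : ℝ) < 2)
    exact ⟨k, hk.le⟩
  classical
  refine ⟨Nat.find hex, Nat.find_spec hex, ?_⟩
  rcases Nat.eq_zero_or_pos (Nat.find hex) with h0 | h0
  · rw [h0]; norm_num; linarith
  · have h1 := Nat.find_min hex (Nat.sub_lt h0 one_pos)
    rw [not_le] at h1
    have h2 : (2 : ℝ) ^ Nat.find hex = 2 * 2 ^ (Nat.find hex - 1) := by
      rw [← pow_succ']; congr 1; omega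
    rw [h2]; linarith

/-- **[LOW]** -/
theorem stLow {M : ℕ} (κ : Ker M) : StLow κ := by
  classical
  have he : (1 / 64 : ℝ) ≤ 1 / 64 := le_rfl
  obtain ⟨C0, hC0, hk⟩ := κ.k_bdd
  obtain ⟨CF, hCF, hF⟩ := H724.stFD2 4
  set K0 : ℝ := C0 ^ 2 * (2 ^ 33 * 8 ^ 6 * 192 * 1024) with hK0
  have hK0' : 0 ≤ K0 := by positivity
  refine ⟨⌈K0⌉₊ + ⌈2 * CF⌉₊ + 13, by omega, ?_⟩
  intro u hu hlip n ν g hg hg1 hgx F G A H Q W δ hA hAQ hQh hW hQW hδ hδ1 hok hm hs
  set C : ℕ := ⌈K0⌉₊ + ⌈2 * CF⌉₊ + 13 with hC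
  set E : Set (ℝ × ℝ) := {z | g z ≠ 0} with hE
  have hCK : K0 ≤ C := by
    rw [hC]; push_cast
    have := Nat.le_ceil K0
    have : (0 : ℝ) ≤ ⌈2 * CF⌉₊ := by positivity
    linarith
  have hCCF : 2 * CF ≤ C := by
    rw [hC]; push_cast
    have := Nat.le_ceil (2 * CF)
    have : (0 : ℝ) ≤ ⌈K0⌉₊ := by positivity
    linarith
  have hC13 : 13 ≤ C := by omega
  have hC13' : (13 : ℝ) ≤ C := by exact_mod_cast hC13
  have h2ν : (1 : ℝ) ≤ 2 ^ ν := one_le_pow₀ (by norm_num)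
  have hA1 : (13 : ℝ) ≤ A := by nlinarith
  have hA1' : (1 : ℝ) ≤ A := by linarith
  have hAν : (2 : ℝ) ^ ν ≤ A := by nlinarith
  have hACF : 2 * CF * 2 ^ ν ≤ A := le_trans (by gcongr) hA
  have hACF1 : CF ≤ A := by nlinarith
  set S' : ℝ := 2 * 2 ^ ν with hS'
  have hS'1 : 1 ≤ S' := by rw [hS']; linarith
  have hS'4 : (2 : ℝ) ^ (ν + 1) ≤ S' ^ 4 := by
    have : (2 : ℝ) ^ (ν + 1) = S' ^ 1 := by rw [hS', pow_one, pow_succ]; ring
    rw [this]
    exact pow_le_pow_right₀ hS'1 (by norm_num)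
  obtain ⟨ι, hι, T, t1, t2, t3, -, t5⟩ := hF u hu E (meas_supp hg) (bdd_supp hg) n ν S' 1 le_rfl
    hS'1 hS'4
  have hCS : CF * S' ≤ A := by rw [hS']; linarith
  obtain ⟨k, hk1, hk2⟩ := exists_pow (x := 4 * A) (by linarith)
  obtain ⟨Rs, r1, r2, r3⟩ := tops_kakeya he hu hlip (bdd_supp hg) (fun z hz => hgx z hz) ν T hCF t1
    t2 t3 k hk1
  set B := (G.bad Q H).low δ with hB
  -- pointwise bound of one tree
  have hBsub : ∀ i j z, z ∈ B.E i j → z ∈ F.E i j := fun i j z hz => hz.1.1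
  have hvol : ∀ i j ζ, volume {z | z ∈ B.E i j ∧ Over u j z ζ} ≤
      ENNReal.ofReal (16 * A * δ / 2 ^ j) := by
    intro i j ζ
    exact low_vol (G.bad Q H) hδ.le hA1' i j (fun z hz => hok.slope i j z hz.1) ζ
  have hwin : ∀ i j j' z z' ζ, z ∈ B.E i j → z' ∈ B.E i j' → Over u j z ζ → Over u j' z' ζ →
      j' ≤ j → (j : ℝ) ≤ j' + W := by
    intro i j j' z z' ζ hz hz' ho ho' hj
    have h2j' : (0 : ℝ) < 2 ^ j' := by positivity
    have h1 : 1 / (8 * (2 : ℝ) ^ j) ≤ 1 / (8 * 2 ^ j') := by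
      apply one_div_le_one_div_of_le (by positivity)
      have : (2 : ℝ) ^ j' ≤ 2 ^ j := pow_le_pow_right₀ (by norm_num) hj
      linarith
    have h2 : |z.1 - z'.1| ≤ 4 / 2 ^ j' := by
      have h3 : |z.1 - z'.1| ≤ |z.1 - ζ.1| + |z'.1 - ζ.1| := by
        have := abs_sub (z.1 - ζ.1) (z'.1 - ζ.1)
        simpa using this
      have h4 : 1 / (8 * (2 : ℝ) ^ j') + 1 / (8 * 2 ^ j') ≤ 4 / 2 ^ j' := by
        rw [← add_div, div_le_div_iff₀ (by positivity) h2j']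
        nlinarith
      have := ho.1
      have := ho'.1
      linarith
    have h5 := window hA1' hAQ hQh hok hs hz.1 hz'.1 hj h2
    have h6 : (2 : ℝ) ^ (j : ℝ) ≤ 2 ^ (W + (j' : ℝ)) := by
      rw [Real.rpow_natCast, Real.rpow_add (by norm_num), Real.rpow_natCast]
      exact h5.trans (mul_le_mul_of_nonneg_right hQW h2j'.le)
    have h7 := (Real.rpow_le_rpow_left_iff (by norm_num : (1 : ℝ) < 2)).1 h6
    linarith
  have hFS := fun i ζ => FS_le κ hC0.le hk u n g hg1 (B.E i) ζ (a := 16 * A * δ) (W := W)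
    (by positivity) (by linarith) (fun j => hvol i j ζ)
    (fun j j' z z' hz hz' ho ho' hj => hwin i j j' z z' ζ hz hz' ho ho' hj)
  -- the active trees inject into the tops
  have htop : ∀ i j z ζ, z ∈ B.E i j → Over u j z ζ → ∃ m, T.j m ≤ j ∧
      |u z - T.s m| ≤ A * 2 ^ j ∧ ζ ∈ Rs m := by
    intro i j z ζ hz ho
    obtain ⟨m, m1, m2, m3, m4⟩ := t5 j z (hok.sub i j (hBsub i j z hz))
    have h2j : (0 : ℝ) < 2 ^ j := by positivity
    refine ⟨m, m1, m3.trans (by gcongr), r2 m z ζ m2 ?_ ?_⟩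
    · rw [abs_sub_comm]
      refine ho.1.trans ?_
      apply one_div_le_one_div_of_le (by positivity)
      have : (2 : ℝ) ^ T.j m ≤ 2 ^ j := pow_le_pow_right₀ (by norm_num) m1
      linarith
    · have e1 : ζ.2 - T.line m ζ.1 = (z.2 - T.line m z.1) - (z.2 - ζ.2 - (z.1 - ζ.1) * u z) -
          (z.1 - ζ.1) * (u z - T.s m) := by
        unfold Tops.line; ring
      have h7 : |(z.1 - ζ.1) * (u z - T.s m)| ≤ A / 8 := by
        rw [abs_mul]
        calc |z.1 - ζ.1| * |u z - T.s m| ≤ (1 / (8 * 2 ^ j)) * (CF * S' * 2 ^ j) :=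
              mul_le_mul ho.1 m3 (abs_nonneg _) (by positivity)
          _ = CF * S' / 8 := by field_simp
          _ ≤ A / 8 := by linarith
      have h8 := ho.2
      rw [e1]
      have h9 : CF * (S' + 1) ≤ 2 * A := by
        rw [mul_add, mul_one]; linarith
      rw [abs_le] at *
      constructor <;> linarith [m4.1, m4.2, h7.1, h7.2, h8.1, h8.2]
  have hpt : ∀ ζ, |B.sum κ u g n ζ| ≤ C0 * (16 * A * δ) * (W + 1) *
      ∑ m, (Rs m).indicator (fun _ => (1 : ℝ)) ζ := by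
    intro ζ
    set c : ℝ := C0 * (16 * A * δ) * (W + 1) with hc
    have hc0 : 0 ≤ c := by positivity
    set act : Finset B.ι := Finset.univ.filter fun i => ∃ j < n, ∃ z ∈ B.E i j, Over u j z ζ
      with hact
    have h1 : B.sum κ u g n ζ = ∑ i ∈ act, κ.FS u g (B.E i) n ζ := by
      unfold Tr.sum
      symm
      apply Finset.sum_subset (Finset.filter_subset _ _)
      intro i _ hi
      apply (hFS i ζ).2
      intro h'
      exact hi (Finset.mem_filter.2 ⟨Finset.mem_univ _, h'⟩)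
    have h2 : |∑ i ∈ act, κ.FS u g (B.E i) n ζ| ≤ act.card * c := by
      refine (Finset.abs_sum_le_sum_abs _ _).trans ?_
      calc ∑ i ∈ act, |κ.FS u g (B.E i) n ζ| ≤ ∑ i ∈ act, c :=
            Finset.sum_le_sum fun i _ => (hFS i ζ).1
        _ = act.card * c := by rw [Finset.sum_const, nsmul_eq_mul]
    have h3 : ∑ m, (Rs m).indicator (fun _ => (1 : ℝ)) ζ =
        ((Finset.univ.filter fun m => ζ ∈ Rs m).card : ℝ) := by
      rw [Finset.card_filter]; push_cast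
      exact Finset.sum_congr rfl fun m _ => by
        by_cases h : ζ ∈ Rs m <;> simp [h]
    have h4 : act.card ≤ (Finset.univ.filter fun m => ζ ∈ Rs m).card := by
      have h5 : ∀ i ∈ act, ∃ m, ∃ j z, z ∈ B.E i j ∧ Over u j z ζ ∧ T.j m ≤ j ∧
          |u z - T.s m| ≤ A * 2 ^ j ∧ ζ ∈ Rs m := by
        intro i hi
        obtain ⟨j, -, z, hz, ho⟩ := (Finset.mem_filter.1 hi).2
        obtain ⟨m, hm1, hm2, hm3⟩ := htop i j z ζ hz ho
        exact ⟨m, j, z, hz, ho, hm1, hm2, hm3⟩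
      rcases act.eq_empty_or_nonempty with h0 | ⟨i0, hi0⟩
      · rw [h0]; simp
      have : Nonempty ι := ⟨(h5 i0 hi0).choose⟩
      choose! φ hφ using h5
      apply Finset.card_le_card_of_injOn φ
      · intro i hi
        obtain ⟨j, z, -, -, -, -, h6⟩ := hφ i hi
        simpa using h6
      · -- injectivity
        have key : ∀ i i' j j' z z', z ∈ B.E i j → z' ∈ B.E i' j' → Over u j z ζ →
            Over u j' z' ζ → |u z - T.s (φ i)| ≤ A * 2 ^ j → |u z' - T.s (φ i')| ≤ A * 2 ^ j' →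
            φ i = φ i' → j' ≤ j → i = i' := by
          intro i i' j j' z z' hz hz' ho ho' h6 h7 h8 hj
          by_contra hne
          have h9 := sepz hA1' (hAQ.trans hQh) hok hm hs hne (hBsub _ _ _ hz) (hBsub _ _ _ hz')
            hj ho ho'
          have h10 := hok.slope i' j' z' (hBsub _ _ _ hz')
          have h11 : (2 : ℝ) ^ j' ≤ 2 ^ j := pow_le_pow_right₀ (by norm_num) hj
          have h2j : (0 : ℝ) < 2 ^ j := by positivity
          rw [← h8] at h7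
          have h12 : A * (2 : ℝ) ^ j' ≤ A * 2 ^ j := by gcongr
          have h13 : |u z - F.s i'| ≤ |u z - T.s (φ i)| + |u z' - T.s (φ i)| +
              |u z' - F.s i'| := by
            have e1 : u z - F.s i' = (u z - T.s (φ i)) - (u z' - T.s (φ i)) +
              (u z' - F.s i') := by ring
            rw [e1]
            exact (abs_add_le _ _).trans (add_le_add (abs_sub _ _) le_rfl)
          have h14 : 0 < A * 2 ^ j := by positivity
          have h15 : |u z' - F.s i'| ≤ A * 2 ^ j' := h10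
          have h16 : 60 * A * 2 ^ j = 60 * (A * 2 ^ j) := by ring
          rw [h16] at h9
          linarith
        intro i hi i' hi' hii
        obtain ⟨j, z, hz, ho, -, h6, -⟩ := hφ i hi
        obtain ⟨j', z', hz', ho', -, h7, -⟩ := hφ i' hi'
        rcases le_total j' j with h8 | h8
        · exact key i i' j j' z z' hz hz' ho ho' h6 h7 hii h8
        · exact (key i' i j' j z' z hz' hz ho' ho h7 h6 hii.symm h8).symm
    rw [h1, h3]
    refine h2.trans ?_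
    rw [mul_comm]
    apply mul_le_mul_of_nonneg_left _ hc0
    exact_mod_cast h4
  have hfinal := int_le_of_pt (K := 2 ^ 33 * 64 ^ k * (192 * CF * (2 ^ ν) ^ 3) *
    (volume E).toReal) (by positivity) hpt r3
  refine hfinal.trans ?_
  -- numerics
  have hV : 0 ≤ (volume E).toReal := ENNReal.toReal_nonneg
  have n1 : (64 : ℝ) ^ k ≤ (8 * A) ^ 6 := by
    have : (64 : ℝ) ^ k = (2 ^ k) ^ 6 := by
      rw [← pow_mul, mul_comm k 6, pow_mul]; norm_num
    rw [this]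
    apply pow_le_pow_left₀ (by positivity)
    linarith
  have n2 : ((2 : ℝ) ^ ν) ^ 3 ≤ A ^ 3 := pow_le_pow_left₀ (by positivity) hAν 3
  have n3 : W + 1 ≤ 2 * W := by linarith
  have hAW : 1 ≤ A * W := by nlinarith
  calc (C0 * (16 * A * δ) * (W + 1)) ^ 2 * (2 ^ 33 * 64 ^ k * (192 * CF * (2 ^ ν) ^ 3) *
        (volume E).toReal)
      ≤ (C0 * (16 * A * δ) * (2 * W)) ^ 2 * (2 ^ 33 * (8 * A) ^ 6 * (192 * A * A ^ 3) *
        (volume E).toReal) := by gcongr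
    _ = K0 * (A ^ 12 * W ^ 2) * δ ^ 2 * (volume E).toReal := by rw [hK0]; ring
    _ ≤ C * (A * W) ^ C * δ ^ 2 * (volume E).toReal := by
        have n4 : A ^ 12 * W ^ 2 ≤ (A * W) ^ C := by
          calc A ^ 12 * W ^ 2 ≤ A ^ 12 * W ^ 12 :=
                mul_le_mul_of_nonneg_left (pow_le_pow_right₀ hW (by norm_num)) (by positivity)
            _ = (A * W) ^ 12 := by rw [mul_pow]
            _ ≤ (A * W) ^ C := pow_le_pow_right₀ hAW (by omega)
        gcongr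

end Vale.Agent.P112.H158
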