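import Vale.Agent.P112.H213.Tasks

/-!
# P112, DEC: the kernels (KERM) and the two limits (LIM1), (LIM2)
-/

set_option linter.unusedSectionVars false

open MeasureTheory Set Filter Topology

namespace Vale.Agent.P112.DEC

/-- smooth functions vanishing outside `(-1, 1)` -/
structure S1 (f : ℝ → ℝ) : Prop where
  smooth : ContDiff ℝ (⊤ : ℕ∞) f
  supp : ∀ t, 1 ≤ |t| → f t = 0

theorem S1.hcs {f : ℝ → ℝ} (hf : S1 f) : HasCompactSupport f :=
  HasCompactSupport.intro (K := Icc (-1) 1) isCompact_Icc fun s hs => by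
    rw [mem_Icc, ← abs_le, not_le] at hs
    exact hf.supp s hs.le

theorem S1.mom_int {f : ℝ → ℝ} (hf : S1 f) (i : ℕ) : Integrable fun s => s ^ i * f s :=
  ((continuous_pow i).mul hf.smooth.continuous).integrable_of_hasCompactSupport hf.hcs.mul_left

theorem S1.prim {g : ℝ → ℝ} (hg : S1 g) (h0 : ∫ s, g s = 0) :
    ∃ P : ℝ → ℝ, S1 P ∧ (∀ s, HasDerivAt P (g s) s) ∧
      ∀ i : ℕ, ∫ s, s ^ i * P s = -((i : ℝ) + 1)⁻¹ * ∫ s, s ^ (i + 1) * g s := by
  have hcont := hg.smooth.continuous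
  let P : ℝ → ℝ := fun s => ∫ r in (-1 : ℝ)..s, g r
  have hd : ∀ s, HasDerivAt P (g s) s := fun s =>
    intervalIntegral.integral_hasDerivAt_right (hcont.intervalIntegrable _ _)
      (hcont.stronglyMeasurableAtFilter _ _) hcont.continuousAt
  have hc : ContDiff ℝ (⊤ : ℕ∞) P := by
    refine contDiff_infty_iff_deriv.2 ⟨fun s => (hd s).differentiableAt, ?_⟩
    have : deriv P = g := funext fun s => (hd s).deriv
    rw [this]; exact hg.smooth
  have hs : ∀ t, 1 ≤ |t| → P t = 0 := by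
    intro t ht
    rcases le_or_gt 0 t with h | h
    · rw [abs_of_nonneg h] at ht
      have h1 : ∫ r in (-1 : ℝ)..t, g r = ∫ r, g r := by
        rw [intervalIntegral.integral_of_le (by linarith)]
        refine setIntegral_eq_integral_of_forall_compl_eq_zero fun r hr => ?_
        rw [mem_Ioc, not_and_or, not_lt, not_le] at hr
        refine hg.supp r ?_
        rcases hr with hr | hr
        · rw [le_abs]; right; linarith
        · rw [le_abs]; left; linarith
      show (∫ r in (-1 : ℝ)..t, g r) = 0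
      rw [h1, h0]
    · rw [abs_of_neg h] at ht
      show (∫ r in (-1 : ℝ)..t, g r) = 0
      rw [intervalIntegral.integral_symm, intervalIntegral.integral_of_le (by linarith), neg_eq_zero]
      refine (setIntegral_congr_fun measurableSet_Ioc fun r hr => ?_).trans (integral_zero _ _)
      refine hg.supp r ?_
      rw [le_abs]; right
      linarith [hr.2]
  have hP : S1 P := ⟨hc, hs⟩
  refine ⟨P, hP, hd, fun i => ?_⟩
  have h1 : ∀ s : ℝ, HasDerivAt (fun s : ℝ => s ^ (i + 1) * P s)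
      (((i : ℝ) + 1) * (s ^ i * P s) + s ^ (i + 1) * g s) s := by
    intro s
    have h2 := (hasDerivAt_pow (i + 1) s).mul (hd s)
    have h3 : ((i : ℝ) + 1) * (s ^ i * P s) + s ^ (i + 1) * g s =
        ((i + 1 : ℕ) : ℝ) * s ^ (i + 1 - 1) * P s + s ^ (i + 1) * g s := by
      rw [Nat.add_sub_cancel]; push_cast; ring
    rw [h3]
    exact h2
  have h2 := integral_eq_zero_of_hasDerivAt_of_integrable h1
    (((hP.mom_int i).const_mul _).add (hg.mom_int (i + 1))) (hP.mom_int (i + 1))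
  rw [integral_add ((hP.mom_int i).const_mul _) (hg.mom_int (i + 1)), integral_const_mul] at h2
  have h3 : ((i : ℝ) + 1) ≠ 0 := by positivity
  have h4 : ((i : ℝ) + 1) * ∫ s, s ^ i * P s = -∫ s, s ^ (i + 1) * g s := by linarith
  calc ∫ s, s ^ i * P s = ((i : ℝ) + 1)⁻¹ * (((i : ℝ) + 1) * ∫ s, s ^ i * P s) := by
        rw [← mul_assoc, inv_mul_cancel₀ h3, one_mul]
    _ = _ := by rw [h4]; ring

/-- functions with vanishing moments are iterated derivatives -/
theorem S1.iter (n : ℕ) : ∀ {g : ℝ → ℝ}, S1 g → (∀ i < n, ∫ s, s ^ i * g s = 0) →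
    ∃ X : ℝ → ℝ, S1 X ∧ ∀ s, iteratedDeriv n X s = g s := by
  induction n with
  | zero =>
    intro g hg _
    exact ⟨g, hg, fun s => by rw [iteratedDeriv_zero]⟩
  | succ n ih =>
    intro g hg hm
    have h0 : ∫ s, g s = 0 := by
      have := hm 0 (Nat.succ_pos n)
      simpa using this
    obtain ⟨P, hP, hd, hPm⟩ := hg.prim h0
    obtain ⟨X, hX, hXd⟩ := ih hP (fun i hi => by rw [hPm i, hm (i + 1) (by omega), mul_zero])
    refine ⟨X, hX, fun s => ?_⟩
    rw [iteratedDeriv_succ, funext hXd]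
    exact (hd s).deriv

theorem mom_dil {f : ℝ → ℝ} (i : ℕ) :
    ∫ s, s ^ i * dil 1 f s = ((2 : ℝ) ^ i)⁻¹ * ∫ s, s ^ i * f s := by
  have h1 : ∀ s : ℝ, s ^ i * dil 1 f s = 2 * ((2 : ℝ) ^ i)⁻¹ * (fun r => r ^ i * f r) (2 * s) := by
    intro s
    simp only [dil, zpow_one, mul_pow]
    field_simp
  simp only [h1]
  rw [integral_const_mul, Measure.integral_comp_mul_left (fun r => r ^ i * f r) 2, abs_of_pos
    (by norm_num), smul_eq_mul]
  ring

theorem S1.dil1 {f : ℝ → ℝ} (hf : S1 f) : S1 (dil 1 f) := by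
  refine ⟨?_, fun t ht => ?_⟩
  · exact contDiff_const.mul (hf.smooth.comp (contDiff_const.mul contDiff_id))
  · simp only [dil, zpow_one]
    rw [hf.supp (2 * t) (by rw [abs_mul, abs_two]; linarith), mul_zero]

/-- approximate identity with vanishing moments -/
theorem exists_mom (M : ℕ) : ∃ φ : ℝ → ℝ, S1 φ ∧ ∫ s, φ s = 1 ∧
    ∀ i, 1 ≤ i → i ≤ M → ∫ s, s ^ i * φ s = 0 := by
  induction M with
  | zero =>
    let β : ContDiffBump (0 : ℝ) := ⟨1 / 2, 1, by norm_num, by norm_num⟩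
    refine ⟨β.normed volume, ⟨β.contDiff_normed, fun t ht => ?_⟩, β.integral_normed,
      fun i h1 h2 => by omega⟩
    have h1 : t ∉ Function.support (β.normed volume) := by
      rw [β.support_normed_eq, Metric.mem_ball, Real.dist_eq, sub_zero, not_lt]
      exact ht
    exact Function.notMem_support.1 h1
  | succ M ih =>
    obtain ⟨φ, hφ, h1, hm⟩ := ih
    set c : ℝ := ((2 : ℝ) ^ (M + 1))⁻¹ with hc
    have hc1 : c < 1 := inv_lt_one_of_one_lt₀ (one_lt_pow₀ one_lt_two (by omega))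
    have hc2 : (1 - c) ≠ 0 := by linarith
    have hmom : ∀ i : ℕ, ∫ s, s ^ i * ((1 - c)⁻¹ * (dil 1 φ s - c * φ s)) =
        (1 - c)⁻¹ * ((((2 : ℝ) ^ i)⁻¹ - c) * ∫ s, s ^ i * φ s) := by
      intro i
      have h2 : ∀ s : ℝ, s ^ i * ((1 - c)⁻¹ * (dil 1 φ s - c * φ s)) =
          (1 - c)⁻¹ * (s ^ i * dil 1 φ s - c * (s ^ i * φ s)) := fun s => by ring
      simp only [h2]
      rw [integral_const_mul, integral_sub (hφ.dil1.mom_int i) ((hφ.mom_int i).const_mul c),
        integral_const_mul, mom_dil]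
      ring
    refine ⟨fun s => (1 - c)⁻¹ * (dil 1 φ s - c * φ s), ⟨?_, fun t ht => ?_⟩, ?_, fun i hi1 hi2 => ?_⟩
    · exact contDiff_const.mul (hφ.dil1.smooth.sub (contDiff_const.mul hφ.smooth))
    · show (1 - c)⁻¹ * (dil 1 φ t - c * φ t) = 0
      rw [hφ.dil1.supp t ht, hφ.supp t ht]; ring
    · have h3 := hmom 0
      simp only [pow_zero, one_mul, inv_one] at h3
      rw [h3, h1, mul_one, inv_mul_cancel₀ hc2]
    · rw [hmom i]
      rcases Nat.lt_or_ge M i with h | h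
      · have : i = M + 1 := by omega
        subst this
        rw [← hc, sub_self]; ring
      · rw [hm i hi1 h]; ring

theorem kerm : KERM := by
  intro M
  obtain ⟨φ, hφ, h1, hm⟩ := exists_mom M
  have hg : S1 fun s => dil 1 φ s - φ s :=
    ⟨hφ.dil1.smooth.sub hφ.smooth, fun t ht => by rw [hφ.dil1.supp t ht, hφ.supp t ht, sub_zero]⟩
  obtain ⟨X, hX, hXd⟩ := S1.iter (M + 1) hg (fun i hi => by
    have h2 : ∀ s : ℝ, s ^ i * (dil 1 φ s - φ s) = s ^ i * dil 1 φ s - s ^ i * φ s :=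
      fun s => by ring
    simp only [h2]
    rw [integral_sub (hφ.dil1.mom_int i) (hφ.mom_int i), mom_dil]
    rcases Nat.eq_zero_or_pos i with h | h
    · subst h; simp
    · rw [hm i h (by omega)]; simp)
  exact ⟨φ, X, hφ.smooth, hφ.supp, h1, hX.smooth, hX.supp, hXd⟩

/-- bound of the norm by the supremum and the size of a box -/
theorem N_le_box {F : ℝ × ℝ → ℝ} {c R S : ℝ} (hc : 0 ≤ c) (hR : 0 ≤ R) (hS : 0 ≤ S)
    (hb : ∀ z, |F z| ≤ c) (hs : ∀ z : ℝ × ℝ, R < |z.1| ∨ S < |z.2| → F z = 0) :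
    N F ≤ c * Real.sqrt (4 * R * S) := by
  have hm : MeasurableSet (Icc (-R) R ×ˢ Icc (-S) S : Set (ℝ × ℝ)) :=
    measurableSet_Icc.prod measurableSet_Icc
  have hfin : volume (Icc (-R) R ×ˢ Icc (-S) S : Set (ℝ × ℝ)) < ⊤ := by
    rw [Measure.volume_eq_prod, Measure.prod_prod]
    exact ENNReal.mul_lt_top (by simp) (by simp)
  have h1 : ∫ z, F z ^ 2 ≤
      ∫ z, (Icc (-R) R ×ˢ Icc (-S) S : Set (ℝ × ℝ)).indicator (fun _ => c ^ 2) z := by
    refine integral_mono_of_nonneg (Eventually.of_forall fun _ => sq_nonneg _) ?_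
      (Eventually.of_forall fun z => ?_)
    · rw [integrable_indicator_iff hm]
      exact integrableOn_const hfin.ne (by finiteness)
    · by_cases hz : z ∈ (Icc (-R) R ×ˢ Icc (-S) S : Set (ℝ × ℝ))
      · rw [indicator_of_mem hz]
        show F z ^ 2 ≤ c ^ 2
        rw [← sq_abs]
        exact pow_le_pow_left₀ (abs_nonneg _) (hb z) 2
      · rw [indicator_of_notMem hz]
        rw [mem_prod, mem_Icc, mem_Icc, ← abs_le, ← abs_le, not_and_or, not_le, not_le] at hz
        show F z ^ 2 ≤ 0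
        rw [hs z hz]; simp
  have h2 : ∫ z, (Icc (-R) R ×ˢ Icc (-S) S : Set (ℝ × ℝ)).indicator (fun _ => c ^ 2) z =
      c ^ 2 * (4 * R * S) := by
    rw [integral_indicator hm, setIntegral_const, smul_eq_mul, Measure.real,
      Measure.volume_eq_prod, Measure.prod_prod, Real.volume_Icc, Real.volume_Icc,
      ← ENNReal.ofReal_mul (by linarith), ENNReal.toReal_ofReal (by nlinarith)]
    ring
  rw [h2] at h1
  calc N F ≤ Real.sqrt (c ^ 2 * (4 * R * S)) := Real.sqrt_le_sqrt h1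
    _ = c * Real.sqrt (4 * R * S) := by rw [Real.sqrt_mul (sq_nonneg c), Real.sqrt_sq hc]

/-- uniform estimate for smooth averages -/
theorem sub_cy_le {ψ : ℝ → ℝ} (hψ : CC1 ψ) (h1 : ∫ s, ψ s = 1) {F : ℝ × ℝ → ℝ} (hF : CC2 F)
    {r ε : ℝ} (hr : ∀ s, r ≤ |s| → ψ s = 0) (hε : ∀ z : ℝ × ℝ, ∀ s : ℝ, |s| < r →
      |F z - F (z.1, z.2 - s)| ≤ ε) (z : ℝ × ℝ) : |F z - cy ψ F z| ≤ L1 ψ * ε := by
  have h2 : F z - cy ψ F z = ∫ s, ψ s * (F z - F (z.1, z.2 - s)) := by
    simp only [mul_sub]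
    rw [integral_sub (hψ.integrable.mul_const _) (cy_integrable hψ hF.bm z),
      integral_mul_const, h1, one_mul]
    rfl
  rw [h2, L1, ← integral_mul_const]
  refine abs_integral_le_integral_abs.trans (integral_mono_of_nonneg
    (Eventually.of_forall fun _ => abs_nonneg _) (hψ.integrable.abs.mul_const _)
    (Eventually.of_forall fun s => ?_))
  show |ψ s * (F z - F (z.1, z.2 - s))| ≤ |ψ s| * ε
  rw [abs_mul]
  by_cases hs : |s| < r
  · exact mul_le_mul_of_nonneg_left (hε z s hs) (abs_nonneg _)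
  · rw [hr s (not_lt.1 hs)]; simp

theorem lim1 : LIM1 := by
  intro φ hφ hφ1 F hF
  obtain ⟨R, hR0, hR⟩ := hφ.exists_supp
  obtain ⟨R', hR'⟩ := hF.bm.supp
  have hR'2 : ∀ z : ℝ × ℝ, |R'| ≤ |z.1| ∨ |R'| ≤ |z.2| → F z = 0 := fun z hz =>
    hR' z (hz.imp (le_trans (le_abs_self _)) (le_trans (le_abs_self _)))
  have huc : UniformContinuous F := hF.2.uniformContinuous_of_continuous hF.1
  have hL := L1_nonneg φ
  set A : ℝ := Real.sqrt (4 * (R + |R'|) * (R + |R'|)) with hA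
  have hA0 : 0 ≤ A := Real.sqrt_nonneg _
  rw [Metric.tendsto_atTop]
  intro δ hδ
  set ε : ℝ := δ / (2 * (L1 φ * A + 1)) with hεd
  have hε : 0 < ε := by positivity
  obtain ⟨η, hη, hη2⟩ := Metric.uniformContinuous_iff.1 huc ε hε
  obtain ⟨M0, hM0⟩ : ∃ M0 : ℕ, R < η * 2 ^ M0 := by
    obtain ⟨n, hn⟩ := pow_unbounded_of_one_lt (R / η) (one_lt_two : (1 : ℝ) < 2)
    exact ⟨n, by rw [div_lt_iff₀ hη] at hn; linarith⟩
  refine ⟨M0, fun M hM => ?_⟩
  rw [Real.dist_eq, sub_zero, abs_of_nonneg (N_nonneg _)]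
  have h2M : (1 : ℝ) ≤ 2 ^ M := one_le_pow₀ one_le_two
  have h2M0 : (2 : ℝ) ^ M0 ≤ 2 ^ M := pow_le_pow_right₀ one_le_two hM
  have hRM : R < η * 2 ^ M := hM0.trans_le (mul_le_mul_of_nonneg_left h2M0 hη.le)
  have hsupp : ∀ s, min R η ≤ |s| → dil M φ s = 0 := by
    intro s hs
    have h0 : R ≤ |(2 : ℝ) ^ (M : ℤ) * s| := by
      rw [abs_mul, zpow_natCast, abs_of_pos (by positivity : (0 : ℝ) < 2 ^ M)]
      rcases min_le_iff.1 hs with h | h
      · calc R ≤ |s| := h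
          _ ≤ 2 ^ M * |s| := le_mul_of_one_le_left (abs_nonneg _) h2M
      · calc R ≤ η * 2 ^ M := hRM.le
          _ ≤ |s| * 2 ^ M := mul_le_mul_of_nonneg_right h (by positivity)
          _ = 2 ^ M * |s| := mul_comm _ _
    simp only [dil, hR _ h0, mul_zero]
  have hint : ∫ s, dil M φ s = 1 := by rw [integral_dil, hφ1]
  have hb : ∀ z, |F z - cy (dil M φ) F z| ≤ L1 φ * ε := by
    intro z
    have := sub_cy_le (hφ.dil M) hint hF (r := min R η) (ε := ε) hsupp (fun z s hs => ?_) z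
    · rwa [L1_dil] at this
    · have h3 : dist z (z.1, z.2 - s) < η := by
        rw [Prod.dist_eq, dist_self]
        show max 0 (dist z.2 (z.2 - s)) < η
        rw [Real.dist_eq, show z.2 - (z.2 - s) = s by ring]
        exact max_lt hη (hs.trans_le (min_le_right _ _))
      have h4 := hη2 h3
      rw [Real.dist_eq] at h4
      exact h4.le
  have hs : ∀ z : ℝ × ℝ, R + |R'| < |z.1| ∨ R + |R'| < |z.2| → F z - cy (dil M φ) F z = 0 := by
    intro z hz
    have h5 : cy (dil M φ) F z = 0 := by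
      refine cy_supp (R := R) (R' := |R'|) (fun s hs => hsupp s ((min_le_left _ _).trans hs))
        hR'2 z (hz.imp (fun h => by linarith) (fun h => h.le))
    rw [h5, hR'2 z (hz.imp (fun h => by linarith) (fun h => by linarith)), sub_zero]
  have h6 := N_le_box (c := L1 φ * ε) (R := R + |R'|) (S := R + |R'|) (by positivity)
    (by positivity) (by positivity) hb hs
  rw [← hA] at h6
  calc N (fun z => F z - cy (dil M φ) F z) ≤ L1 φ * ε * A := h6
    _ = ε * (L1 φ * A) := by ring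
    _ < ε * (2 * (L1 φ * A + 1)) := by
        refine mul_lt_mul_of_pos_left ?_ hε
        nlinarith [mul_nonneg hL hA0]
    _ = δ := by rw [hεd]; field_simp

theorem lim2 : LIM2 := by
  intro φ hφ F hF
  obtain ⟨R, hR0, hR⟩ := hφ.exists_supp
  obtain ⟨B, hB⟩ := hφ.bdd
  have hB0 : 0 ≤ B := (abs_nonneg _).trans (hB 0)
  obtain ⟨R', hR'⟩ := hF.bm.supp
  obtain ⟨M', hM'⟩ := hF.bm.bdd
  have hM'0 : 0 ≤ M' := (abs_nonneg _).trans (hM' 0)
  have hR'2 : ∀ z : ℝ × ℝ, |R'| ≤ |z.1| ∨ |R'| ≤ |z.2| → F z = 0 := fun z hz =>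
    hR' z (hz.imp (le_trans (le_abs_self _)) (le_trans (le_abs_self _)))
  set Q : ℝ := R + |R'| + 1 with hQ
  have hQ0 : 0 < Q := by positivity
  have hRQ : R ≤ Q := by rw [hQ]; linarith [abs_nonneg R']
  have hR'Q : |R'| ≤ Q := by rw [hQ]; linarith
  -- the pointwise bound
  have hb : ∀ (M : ℕ) (z : ℝ × ℝ), |cy (dil (-(M : ℤ)) φ) F z| ≤ (2 ^ M)⁻¹ * (B * M' * (2 * Q)) := by
    intro M z
    have h2 : (0 : ℝ) < (2 : ℝ) ^ (-(M : ℤ)) := by positivity
    have hi : Integrable fun s : ℝ => (Icc (z.2 - Q) (z.2 + Q)).indicator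
        (fun _ => (2 : ℝ) ^ (-(M : ℤ)) * B * M') s := by
      rw [integrable_indicator_iff measurableSet_Icc]
      exact integrableOn_const (by simp) (by finiteness)
    have h3 : |cy (dil (-(M : ℤ)) φ) F z| ≤ ∫ s, (Icc (z.2 - Q) (z.2 + Q)).indicator
        (fun _ => (2 : ℝ) ^ (-(M : ℤ)) * B * M') s := by
      refine abs_integral_le_integral_abs.trans (integral_mono_of_nonneg
        (Eventually.of_forall fun _ => abs_nonneg _) hi (Eventually.of_forall fun s => ?_))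
      show |dil (-(M : ℤ)) φ s * F (z.1, z.2 - s)| ≤ _
      by_cases hs : s ∈ Icc (z.2 - Q) (z.2 + Q)
      · rw [indicator_of_mem hs]
        rw [abs_mul]
        refine mul_le_mul ?_ (hM' _) (abs_nonneg _) (by positivity)
        simp only [dil]
        rw [abs_mul, abs_of_pos h2]
        exact mul_le_mul_of_nonneg_left (hB _) h2.le
      · rw [indicator_of_notMem hs]
        have h4 : |R'| ≤ |z.2 - s| := by
          by_contra hcon
          push Not at hcon
          refine hs ?_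
          have h5 := abs_lt.1 hcon
          exact ⟨by linarith [h5.1, h5.2], by linarith [h5.1, h5.2]⟩
        rw [hR'2 (z.1, z.2 - s) (Or.inr h4), mul_zero, abs_zero]
    refine h3.trans (le_of_eq ?_)
    rw [integral_indicator measurableSet_Icc, setIntegral_const, smul_eq_mul, Measure.real,
      Real.volume_Icc, ENNReal.toReal_ofReal (by linarith), zpow_neg, zpow_natCast]
    ring
  have hs : ∀ (M : ℕ) (z : ℝ × ℝ), Q < |z.1| ∨ 2 ^ M * Q < |z.2| →
      cy (dil (-(M : ℤ)) φ) F z = 0 := by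
    intro M z hz
    have h2M : (1 : ℝ) ≤ 2 ^ M := one_le_pow₀ one_le_two
    refine cy_supp (R := 2 ^ M * R) (R' := |R'|) (fun s hs => ?_) hR'2 z (hz.imp ?_ ?_)
    · have h0 : R ≤ |(2 : ℝ) ^ (-(M : ℤ)) * s| := by
        rw [abs_mul, zpow_neg, zpow_natCast, abs_of_pos (by positivity : (0 : ℝ) < (2 ^ M)⁻¹)]
        rw [inv_mul_eq_div, le_div_iff₀ (by positivity)]
        linarith
      simp only [dil, hR _ h0, mul_zero]
    · intro h; linarith
    · intro h
      have : |R'| ≤ 2 ^ M * |R'| := le_mul_of_one_le_left (abs_nonneg _) h2M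
      have h3 : 2 ^ M * Q = 2 ^ M * R + 2 ^ M * |R'| + 2 ^ M := by rw [hQ]; ring
      linarith
  have hN : ∀ M : ℕ, N (cy (dil (-(M : ℤ)) φ) F) ≤
      (B * M' * (2 * Q) * (2 * Q)) * Real.sqrt ((2 ^ M)⁻¹) := by
    intro M
    have h2M : (0 : ℝ) < 2 ^ M := by positivity
    have h := N_le_box (c := (2 ^ M)⁻¹ * (B * M' * (2 * Q))) (R := Q) (S := 2 ^ M * Q)
      (by positivity) hQ0.le (by positivity) (hb M) (hs M)
    refine h.trans (le_of_eq ?_)
    have h3 : Real.sqrt (4 * Q * (2 ^ M * Q)) = 2 * Q * Real.sqrt (2 ^ M) := by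
      rw [show 4 * Q * (2 ^ M * Q) = (2 * Q) ^ 2 * 2 ^ M by ring, Real.sqrt_mul (sq_nonneg _),
        Real.sqrt_sq (by positivity)]
    rw [h3, Real.sqrt_inv]
    have h4 : (2 ^ M : ℝ) = Real.sqrt (2 ^ M) * Real.sqrt (2 ^ M) := (Real.mul_self_sqrt h2M.le).symm
    have h5 : Real.sqrt (2 ^ M : ℝ) ≠ 0 := (Real.sqrt_pos.2 h2M).ne'
    have h6 : (2 ^ M : ℝ)⁻¹ * Real.sqrt (2 ^ M) = (Real.sqrt (2 ^ M))⁻¹ := by
      field_simp
      rw [sq, ← h4]
    calc (2 ^ M : ℝ)⁻¹ * (B * M' * (2 * Q)) * (2 * Q * Real.sqrt (2 ^ M))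
        = (B * M' * (2 * Q) * (2 * Q)) * ((2 ^ M : ℝ)⁻¹ * Real.sqrt (2 ^ M)) := by ring
      _ = _ := by rw [h6]
  have hlim : Tendsto (fun M : ℕ => (B * M' * (2 * Q) * (2 * Q)) * Real.sqrt (((2 : ℝ) ^ M)⁻¹))
      atTop (𝓝 0) := by
    have h1 : Tendsto (fun M : ℕ => ((2 : ℝ) ^ M)⁻¹) atTop (𝓝 0) :=
      tendsto_inv_atTop_zero.comp (tendsto_pow_atTop_atTop_of_one_lt one_lt_two)
    have h2 := (Real.continuous_sqrt.tendsto 0).comp h1
    rw [Real.sqrt_zero] at h2
    simpa using h2.const_mul (B * M' * (2 * Q) * (2 * Q))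
  exact squeeze_zero (fun M => N_nonneg _) hN hlim

end Vale.Agent.P112.DEC
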