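import Mathlib

/-!
# P112, chapter A (helper158): Littlewood-Paley with compactly supported Lipschitz kernels on `ℝ`
-/

open MeasureTheory Set
open scoped ENNReal

set_option linter.all false

namespace Vale.Agent.P112.H158

/-- convolution on the line -/
noncomputable def cv (K g : ℝ → ℝ) (y : ℝ) : ℝ := ∫ z, K (y - z) * g z

/-- reflection -/
def rf (K : ℝ → ℝ) (y : ℝ) : ℝ := K (-y)

/-- dilation `f_k(y) = 2^k f(2^k y)` -/
noncomputable def dl (k : ℤ) (f : ℝ → ℝ) (y : ℝ) : ℝ := (2:ℝ) ^ k * f ((2:ℝ) ^ k * y)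

/-- Lipschitz kernels supported in `[-A, A]` -/
structure Kern (φ : ℝ → ℝ) (A M : ℝ) : Prop where
  lip : ∀ x y, |φ x - φ y| ≤ M * |x - y|
  supp : ∀ x, A ≤ |x| → φ x = 0

/-- squared `L²` norm -/
noncomputable def nsq (f : ℝ → ℝ) : ℝ≥0∞ := ∫⁻ y, ‖f y‖ₑ ^ 2

/-- `L¹` norm -/
noncomputable def n1 (f : ℝ → ℝ) : ℝ≥0∞ := ∫⁻ y, ‖f y‖ₑ

lemma Kern.continuous {φ : ℝ → ℝ} {A M : ℝ} (h : Kern φ A M) : Continuous φ := by
  have : LipschitzWith (Real.toNNReal M) φ := by
    refine LipschitzWith.of_dist_le_mul fun x y => ?_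
    rw [Real.dist_eq, Real.dist_eq]
    refine (h.lip x y).trans ?_
    gcongr
    exact Real.le_coe_toNNReal M
  exact this.continuous

lemma Kern.hasCompactSupport {φ : ℝ → ℝ} {A M : ℝ} (h : Kern φ A M) : HasCompactSupport φ := by
  refine HasCompactSupport.intro (isCompact_Icc (a := -A) (b := A)) fun x hx => ?_
  apply h.supp
  by_contra hc
  rw [not_le] at hc
  exact hx ⟨by linarith [neg_abs_le x], by linarith [le_abs_self x]⟩

lemma nsq_lt_top_iff {f : ℝ → ℝ} (hf : Measurable f) : nsq f < ⊤ ↔ MemLp f 2 volume := by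
  unfold nsq
  rw [memLp_two_iff_integrable_sq_norm hf.aestronglyMeasurable]
  constructor
  · intro h
    refine ⟨(hf.norm.pow_const 2).aestronglyMeasurable, ?_⟩
    unfold HasFiniteIntegral
    refine lt_of_le_of_lt (le_of_eq ?_) h
    refine lintegral_congr fun y => ?_
    rw [enorm_pow, enorm_norm]
  · intro h
    have h2 := h.2
    unfold HasFiniteIntegral at h2
    refine lt_of_le_of_lt (le_of_eq ?_) h2
    refine lintegral_congr fun y => ?_
    rw [enorm_pow, enorm_norm]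

/-- Young's inequality `L¹ * L² → L²` in positive form. -/
lemma young_pos {K g : ℝ → ℝ≥0∞} (hK : Measurable K) (hg : Measurable g) :
    ∫⁻ y, (∫⁻ z, K (y - z) * g z) ^ 2 ≤ (∫⁻ y, K y) ^ 2 * ∫⁻ z, g z ^ 2 := by
  have h1 : ∀ y, (∫⁻ z, K (y - z) * g z) ^ 2 ≤ (∫⁻ z, K z) * ∫⁻ z, K (y - z) * g z ^ 2 := by
    intro y
    have hcs := ENNReal.lintegral_mul_le_Lp_mul_Lq (μ := volume) (p := 2) (q := 2)
      Real.HolderConjugate.two_two
      (f := fun z => (K (y - z)) ^ (1/2 : ℝ)) (g := fun z => (K (y - z)) ^ (1/2 : ℝ) * g z)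
      (((hK.comp (measurable_const.sub measurable_id)).pow_const _).aemeasurable)
      ((((hK.comp (measurable_const.sub measurable_id)).pow_const _).mul hg).aemeasurable)
    have e1 : ∀ z, ((fun z => (K (y - z)) ^ (1/2 : ℝ)) * fun z => (K (y - z)) ^ (1/2 : ℝ) * g z) z
        = K (y - z) * g z := by
      intro z
      simp only [Pi.mul_apply]
      rw [← mul_assoc, ← ENNReal.rpow_add_of_nonneg _ _ (by norm_num) (by norm_num)]
      norm_num
    have e2 : ∀ z, ((K (y - z)) ^ (1/2 : ℝ)) ^ (2:ℝ) = K (y - z) := by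
      intro z
      rw [← ENNReal.rpow_mul]
      norm_num
    have e3 : ∀ z, ((K (y - z)) ^ (1/2 : ℝ) * g z) ^ (2:ℝ) = K (y - z) * g z ^ 2 := by
      intro z
      rw [ENNReal.mul_rpow_of_nonneg _ _ (by norm_num), e2 z]
      norm_num
    rw [lintegral_congr e1, lintegral_congr e2, lintegral_congr e3] at hcs
    have e4 : ∫⁻ z, K (y - z) = ∫⁻ z, K z := lintegral_sub_left_eq_self K y
    rw [e4] at hcs
    calc (∫⁻ z, K (y - z) * g z) ^ 2
        ≤ ((∫⁻ z, K z) ^ (1 / 2 : ℝ) * (∫⁻ z, K (y - z) * g z ^ 2) ^ (1 / 2 : ℝ)) ^ 2 := by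
          gcongr
      _ = _ := by
          rw [mul_pow, ← ENNReal.rpow_natCast, ← ENNReal.rpow_natCast, ← ENNReal.rpow_mul,
            ← ENNReal.rpow_mul]
          norm_num
  calc ∫⁻ y, (∫⁻ z, K (y - z) * g z) ^ 2
      ≤ ∫⁻ y, (∫⁻ z, K z) * ∫⁻ z, K (y - z) * g z ^ 2 := lintegral_mono h1
    _ = (∫⁻ z, K z) * ∫⁻ y, ∫⁻ z, K (y - z) * g z ^ 2 := by
        rw [lintegral_const_mul]
        exact Measurable.lintegral_prod_right'
          (f := fun p : ℝ × ℝ => K (p.1 - p.2) * g p.2 ^ 2) (by fun_prop)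
    _ = (∫⁻ z, K z) * ∫⁻ z, ∫⁻ y, K (y - z) * g z ^ 2 := by
        rw [lintegral_lintegral_swap]
        exact (by fun_prop : Measurable (fun p : ℝ × ℝ => K (p.1 - p.2) * g p.2 ^ 2)).aemeasurable
    _ = (∫⁻ z, K z) * ∫⁻ z, (∫⁻ y, K y) * g z ^ 2 := by
        congr 1
        refine lintegral_congr fun z => ?_
        rw [lintegral_mul_const _ (by fun_prop), lintegral_sub_right_eq_self K z]
    _ = _ := by
        rw [lintegral_const_mul _ (by fun_prop)]
        ring

lemma measurable_cv {K g : ℝ → ℝ} (hK : Measurable K) (hg : Measurable g) :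
    Measurable (cv K g) := by
  have : StronglyMeasurable (fun p : ℝ × ℝ => K (p.1 - p.2) * g p.2) := by
    apply Measurable.stronglyMeasurable
    fun_prop
  exact (this.integral_prod_right' (ν := volume)).measurable

lemma enorm_cv_le (K g : ℝ → ℝ) (y : ℝ) :
    ‖cv K g y‖ₑ ≤ ∫⁻ z, ‖K (y - z)‖ₑ * ‖g z‖ₑ := by
  unfold cv
  refine (enorm_integral_le_lintegral_enorm _).trans (le_of_eq ?_)
  refine lintegral_congr fun z => ?_
  rw [enorm_mul]

lemma young {K g : ℝ → ℝ} (hK : Measurable K) (hg : Measurable g) :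
    nsq (cv K g) ≤ n1 K ^ 2 * nsq g := by
  unfold nsq n1
  calc ∫⁻ y, ‖cv K g y‖ₑ ^ 2 ≤ ∫⁻ y, (∫⁻ z, ‖K (y - z)‖ₑ * ‖g z‖ₑ) ^ 2 := by
        refine lintegral_mono fun y => ?_
        gcongr
        exact enorm_cv_le K g y
    _ ≤ _ := young_pos (K := fun y => ‖K y‖ₑ) (g := fun y => ‖g y‖ₑ) hK.enorm hg.enorm

lemma memLp_cv {K g : ℝ → ℝ} (hK : Measurable K) (hg : Measurable g) (hK1 : n1 K < ⊤)
    (hg2 : MemLp g 2 volume) : MemLp (cv K g) 2 volume := by
  rw [← nsq_lt_top_iff (measurable_cv hK hg)]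
  refine lt_of_le_of_lt (young hK hg) ?_
  exact ENNReal.mul_lt_top (ENNReal.pow_lt_top hK1) ((nsq_lt_top_iff hg).2 hg2)

/-- Cauchy-Schwarz in positive form -/
lemma cs_pos {f g : ℝ → ℝ≥0∞} (hf : Measurable f) (hg : Measurable g) :
    (∫⁻ y, f y * g y) ^ 2 ≤ (∫⁻ y, f y ^ 2) * ∫⁻ y, g y ^ 2 := by
  have h := ENNReal.lintegral_mul_le_Lp_mul_Lq (μ := volume) (p := 2) (q := 2)
      Real.HolderConjugate.two_two (f := f) (g := g) hf.aemeasurable hg.aemeasurable
  have e : ∀ (u : ℝ → ℝ≥0∞) z, u z ^ (2:ℝ) = u z ^ 2 := by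
    intro u z; exact ENNReal.rpow_two _
  rw [lintegral_congr (e f), lintegral_congr (e g)] at h
  calc (∫⁻ y, f y * g y) ^ 2
      ≤ ((∫⁻ y, f y ^ 2) ^ (1/2 : ℝ) * (∫⁻ y, g y ^ 2) ^ (1/2 : ℝ)) ^ 2 := by
        gcongr
        exact h
    _ = _ := by
        rw [mul_pow, ← ENNReal.rpow_natCast, ← ENNReal.rpow_natCast, ← ENNReal.rpow_mul,
            ← ENNReal.rpow_mul]
        norm_num

lemma integrable_triple {K G g : ℝ → ℝ} (hK : Measurable K) (hG : Measurable G)
    (hg : Measurable g) (hK1 : n1 K < ⊤) (hG2 : MemLp G 2 volume) (hg2 : MemLp g 2 volume) :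
    Integrable (fun p : ℝ × ℝ => G p.1 * (K (p.1 - p.2) * g p.2)) (volume.prod volume) := by
  have hm : Measurable (fun p : ℝ × ℝ => G p.1 * (K (p.1 - p.2) * g p.2)) := by fun_prop
  refine ⟨hm.aestronglyMeasurable, ?_⟩
  unfold HasFiniteIntegral
  rw [lintegral_prod _ hm.enorm.aemeasurable]
  have hsq : (∫⁻ y, ∫⁻ z, ‖G y * (K (y - z) * g z)‖ₑ) ^ 2 < ⊤ := by
    have e : ∀ y, ∫⁻ z, ‖G y * (K (y - z) * g z)‖ₑ
        = ‖G y‖ₑ * ∫⁻ z, ‖K (y - z)‖ₑ * ‖g z‖ₑ := by
      intro y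
      rw [← lintegral_const_mul _ (by fun_prop)]
      refine lintegral_congr fun z => ?_
      rw [enorm_mul, enorm_mul]
    rw [lintegral_congr e]
    have hm2 : Measurable (fun y => ∫⁻ z, ‖K (y - z)‖ₑ * ‖g z‖ₑ) :=
      Measurable.lintegral_prod_right' (f := fun p : ℝ × ℝ => ‖K (p.1 - p.2)‖ₑ * ‖g p.2‖ₑ)
        (by fun_prop)
    refine lt_of_le_of_lt (cs_pos hG.enorm hm2) ?_
    refine ENNReal.mul_lt_top ((nsq_lt_top_iff hG).2 hG2) ?_
    refine lt_of_le_of_lt (young_pos (K := fun y => ‖K y‖ₑ) (g := fun y => ‖g y‖ₑ)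
      hK.enorm hg.enorm) ?_
    exact ENNReal.mul_lt_top (ENNReal.pow_lt_top hK1) ((nsq_lt_top_iff hg).2 hg2)
  by_contra hcon
  rw [not_lt, top_le_iff] at hcon
  have : (∫⁻ y, ∫⁻ z, ‖G y * (K (y - z) * g z)‖ₑ) = ⊤ := hcon
  rw [this] at hsq
  simp at hsq

/-- the adjoint of convolution is convolution with the reflected kernel -/
lemma integral_mul_cv {K G g : ℝ → ℝ} (hK : Measurable K) (hG : Measurable G)
    (hg : Measurable g) (hK1 : n1 K < ⊤) (hG2 : MemLp G 2 volume) (hg2 : MemLp g 2 volume) :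
    ∫ y, G y * cv K g y = ∫ z, g z * cv (rf K) G z := by
  have h := integrable_triple hK hG hg hK1 hG2 hg2
  have e1 : ∫ y, G y * cv K g y = ∫ y, ∫ z, G y * (K (y - z) * g z) := by
    refine integral_congr_ae (Filter.Eventually.of_forall fun y => ?_)
    simp only [cv]
    rw [← integral_const_mul]
  have e2 : ∫ z, g z * cv (rf K) G z = ∫ z, ∫ y, G y * (K (y - z) * g z) := by
    refine integral_congr_ae (Filter.Eventually.of_forall fun z => ?_)
    simp only [cv, rf]
    rw [← integral_const_mul]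
    refine integral_congr_ae (Filter.Eventually.of_forall fun y => ?_)
    simp only []
    have : -(z - y) = y - z := by ring
    rw [this]
    ring
  rw [e1, e2]
  exact integral_integral_swap h

/-- associativity -/
lemma cv_cv {K₁ K₂ g : ℝ → ℝ} (hK₁ : Measurable K₁) (hK₂ : Measurable K₂)
    (hg : Measurable g) (hK1 : n1 K₂ < ⊤) (hG2 : MemLp K₁ 2 volume) (hg2 : MemLp g 2 volume)
    (y : ℝ) : cv K₁ (cv K₂ g) y = cv (cv K₁ K₂) g y := by
  have hGm : Measurable (fun z => K₁ (y - z)) := hK₁.comp (measurable_const.sub measurable_id)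
  have hG : MemLp (fun z => K₁ (y - z)) 2 volume :=
    hG2.comp_measurePreserving (Measure.measurePreserving_sub_left volume y)
  have h := integral_mul_cv (G := fun z => K₁ (y - z)) hK₂ hGm hg hK1 hG hg2
  have e : ∀ w, cv (rf K₂) (fun z => K₁ (y - z)) w = cv K₁ K₂ (y - w) := by
    intro w
    unfold cv rf
    have hs := integral_sub_right_eq_self (μ := volume) (fun z => K₁ (y - w - z) * K₂ z) w
    rw [← hs]
    refine integral_congr_ae (Filter.Eventually.of_forall fun z => ?_)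
    simp only []
    have h1 : -(w - z) = z - w := by ring
    have h2 : y - w - (z - w) = y - z := by ring
    rw [h1, h2]
    ring
  have e0 : cv K₁ (cv K₂ g) y = ∫ z, K₁ (y - z) * cv K₂ g z := rfl
  rw [e0, h]
  unfold cv
  refine integral_congr_ae (Filter.Eventually.of_forall fun w => ?_)
  simp only []
  have := e w
  unfold cv at this
  rw [this]
  ring

/-! ### kernels -/

lemma Kern.bound {φ : ℝ → ℝ} {A M : ℝ} (h : Kern φ A M) (hA : 0 ≤ A) (hM : 0 ≤ M) (x : ℝ) :
    |φ x| ≤ 2 * M * A := by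
  by_cases hx : A ≤ |x|
  · rw [h.supp x hx]; simp; positivity
  · rw [not_le] at hx
    have h1 := h.lip x A
    rw [h.supp A (le_abs_self A), sub_zero] at h1
    have h2 : |x - A| ≤ 2 * A := by
      rw [abs_le]
      constructor <;> linarith [neg_abs_le x, le_abs_self x]
    calc |φ x| ≤ M * |x - A| := h1
      _ ≤ M * (2 * A) := by gcongr
      _ = _ := by ring

lemma Kern.integrable {φ : ℝ → ℝ} {A M : ℝ} (h : Kern φ A M) : Integrable φ :=
  h.continuous.integrable_of_hasCompactSupport h.hasCompactSupport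

lemma n1_le_of_bound {f : ℝ → ℝ} {a c : ℝ} (ha : 0 ≤ a) (hc : 0 ≤ c) (hf : ∀ x, |f x| ≤ c)
    (hs : ∀ x, a ≤ |x| → f x = 0) : n1 f ≤ ENNReal.ofReal (c * (2 * a)) := by
  unfold n1
  have h1 : ∀ x, ‖f x‖ₑ ≤ (Icc (-a) a).indicator (fun _ => ENNReal.ofReal c) x := by
    intro x
    by_cases hx : x ∈ Icc (-a) a
    · rw [indicator_of_mem hx, Real.enorm_eq_ofReal_abs]
      exact ENNReal.ofReal_le_ofReal (hf x)
    · rw [indicator_of_notMem hx]
      have : a ≤ |x| := by
        by_contra hcon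
        rw [not_le] at hcon
        exact hx ⟨by linarith [neg_abs_le x], by linarith [le_abs_self x]⟩
      rw [hs x this]; simp
  refine (lintegral_mono h1).trans ?_
  rw [lintegral_indicator measurableSet_Icc, setLIntegral_const, Real.volume_Icc,
    ← ENNReal.ofReal_mul hc]
  apply ENNReal.ofReal_le_ofReal
  apply le_of_eq
  ring

lemma Kern.n1_le {φ : ℝ → ℝ} {A M : ℝ} (h : Kern φ A M) (hA : 0 ≤ A) (hM : 0 ≤ M) :
    n1 φ ≤ ENNReal.ofReal (4 * M * A ^ 2) := by
  refine (n1_le_of_bound hA (by positivity) (h.bound hA hM) h.supp).trans (le_of_eq ?_)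
  congr 1
  ring

lemma Kern.n1_lt {φ : ℝ → ℝ} {A M : ℝ} (h : Kern φ A M) : n1 φ < ⊤ := by
  have := h.integrable.2
  exact this

lemma Kern.integral_abs_le {φ : ℝ → ℝ} {A M : ℝ} (h : Kern φ A M) (hA : 0 ≤ A) (hM : 0 ≤ M) :
    ∫ x, |φ x| ≤ 4 * M * A ^ 2 := by
  have h1 : ∫ x, |φ x| = (n1 φ).toReal := by
    unfold n1
    rw [integral_eq_lintegral_of_nonneg_ae (Filter.Eventually.of_forall fun x => abs_nonneg _)
      h.continuous.abs.aestronglyMeasurable]
    congr 1
    refine lintegral_congr fun x => ?_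
    rw [Real.enorm_eq_ofReal_abs]
  rw [h1]
  exact ENNReal.toReal_le_of_le_ofReal (by positivity) (h.n1_le hA hM)

lemma Kern.rf {φ : ℝ → ℝ} {A M : ℝ} (h : Kern φ A M) : Kern (rf φ) A M := by
  constructor
  · intro x y
    have := h.lip (-x) (-y)
    have e : |(-x) - (-y)| = |x - y| := by
      rw [show (-x) - (-y) = -(x - y) by ring, abs_neg]
    rw [e] at this
    exact this
  · intro x hx
    exact h.supp (-x) (by rwa [abs_neg])

lemma Kern.dl {φ : ℝ → ℝ} {A M : ℝ} (h : Kern φ A M) (k : ℤ) :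
    Kern (dl k φ) (A * ((2:ℝ) ^ k)⁻¹) (M * ((2:ℝ) ^ k) ^ 2) := by
  have hk : (0:ℝ) < (2:ℝ) ^ k := by positivity
  constructor
  · intro x y
    unfold H158.dl
    rw [← mul_sub, abs_mul, abs_of_pos hk]
    have := h.lip ((2:ℝ) ^ k * x) ((2:ℝ) ^ k * y)
    rw [← mul_sub, abs_mul, abs_of_pos hk] at this
    calc (2:ℝ) ^ k * |φ ((2:ℝ) ^ k * x) - φ ((2:ℝ) ^ k * y)|
        ≤ (2:ℝ) ^ k * (M * ((2:ℝ) ^ k * |x - y|)) := by gcongr
      _ = _ := by ring
  · intro x hx
    unfold H158.dl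
    rw [h.supp, mul_zero]
    rw [abs_mul, abs_of_pos hk]
    have : A * ((2:ℝ) ^ k)⁻¹ * (2:ℝ) ^ k ≤ |x| * (2:ℝ) ^ k := by gcongr
    rw [mul_assoc, inv_mul_cancel₀ hk.ne', mul_one] at this
    linarith

lemma integral_dl {φ : ℝ → ℝ} (k : ℤ) : ∫ x, dl k φ x = ∫ x, φ x := by
  unfold dl
  have hk : (0:ℝ) < (2:ℝ) ^ k := by positivity
  rw [integral_const_mul, Measure.integral_comp_mul_left φ ((2:ℝ) ^ k)]
  rw [abs_of_pos (by positivity), smul_eq_mul, ← mul_assoc, mul_inv_cancel₀ hk.ne', one_mul]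

lemma integral_rf {φ : ℝ → ℝ} : ∫ x, rf φ x = ∫ x, φ x := by
  unfold rf
  exact integral_neg_eq_self φ volume

/-- convolution of a coarse kernel with a fine mean zero kernel is small -/
lemma ker_small {P Q : ℝ → ℝ} {a m b n : ℝ} (hP : Kern P a m) (hQ : Kern Q b n)
    (ha : 0 ≤ a) (hm : 0 ≤ m) (hb : 0 ≤ b) (hn : 0 ≤ n) (hba : b ≤ a) (h0 : ∫ x, Q x = 0) :
    n1 (cv P Q) ≤ ENNReal.ofReal (16 * a * m * n * b ^ 3) := by
  have hbd : ∀ v, |cv P Q v| ≤ m * b * (4 * n * b ^ 2) := by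
    intro v
    have hint : Integrable (fun z => P (v - z) * Q z) := by
      have := hQ.integrable.bdd_mul (c := 2 * m * a) (f := fun z => P (v - z))
        ((hP.continuous.comp (by fun_prop)).aestronglyMeasurable)
        (Filter.Eventually.of_forall fun z => by
          rw [Real.norm_eq_abs]; exact hP.bound ha hm _)
      simpa [mul_comm] using this
    have e : cv P Q v = ∫ z, (P (v - z) - P v) * Q z := by
      unfold cv
      have : ∫ z, (P (v - z) - P v) * Q z = (∫ z, P (v - z) * Q z) - ∫ z, P v * Q z := by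
        rw [← integral_sub hint (hQ.integrable.const_mul _)]
        refine integral_congr_ae (Filter.Eventually.of_forall fun z => ?_)
        simp only []
        ring
      rw [this, integral_const_mul, h0, mul_zero, sub_zero]
    rw [e]
    calc |∫ z, (P (v - z) - P v) * Q z| ≤ ∫ z, m * b * |Q z| := by
          rw [← Real.norm_eq_abs]
          refine norm_integral_le_of_norm_le (hQ.integrable.abs.const_mul _)
            (Filter.Eventually.of_forall fun z => ?_)
          rw [Real.norm_eq_abs, abs_mul]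
          by_cases hz : b ≤ |z|
          · rw [hQ.supp z hz]; simp
          · rw [not_le] at hz
            have h1 := hP.lip (v - z) v
            have h2 : |v - z - v| = |z| := by
              rw [show v - z - v = -z by ring, abs_neg]
            rw [h2] at h1
            have h3 : |P (v - z) - P v| ≤ m * b := h1.trans (by gcongr)
            gcongr
      _ = m * b * ∫ z, |Q z| := by rw [integral_const_mul]
      _ ≤ m * b * (4 * n * b ^ 2) := by
          gcongr
          exact hQ.integral_abs_le hb hn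
  have hsupp : ∀ v, 2 * a ≤ |v| → cv P Q v = 0 := by
    intro v hv
    unfold cv
    have : ∀ z, P (v - z) * Q z = 0 := by
      intro z
      by_cases hz : b ≤ |z|
      · rw [hQ.supp z hz, mul_zero]
      · rw [not_le] at hz
        rw [hP.supp, zero_mul]
        have := abs_sub_abs_le_abs_sub v z
        linarith
    simp [this]
  refine (n1_le_of_bound (by positivity) (by positivity) hbd hsupp).trans (le_of_eq ?_)
  congr 1
  ring

lemma cv_comm {P Q : ℝ → ℝ} (v : ℝ) : cv P Q v = cv Q P v := by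
  unfold cv
  have := integral_sub_left_eq_self (μ := volume) (fun z => P (v - z) * Q z) v
  rw [← this]
  refine integral_congr_ae (Filter.Eventually.of_forall fun z => ?_)
  simp only []
  rw [sub_sub_cancel, mul_comm]

/-- almost orthogonality of the kernels -/
lemma ker_ao {ψ : ℝ → ℝ} {A M : ℝ} (h : Kern ψ A M) (hA : 0 ≤ A) (hM : 0 ≤ M)
    (h0 : ∫ x, ψ x = 0) (j k : ℤ) :
    n1 (cv (dl j ψ) (rf (dl k ψ))) ≤
      ENNReal.ofReal (16 * A ^ 4 * M ^ 2 * (2:ℝ) ^ (-|j - k|)) := by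
  have hj : (0:ℝ) < (2:ℝ) ^ j := by positivity
  have hk : (0:ℝ) < (2:ℝ) ^ k := by positivity
  rcases le_total j k with hjk | hjk
  · have hle : A * ((2:ℝ) ^ k)⁻¹ ≤ A * ((2:ℝ) ^ j)⁻¹ := by
      have : (2:ℝ) ^ j ≤ (2:ℝ) ^ k := zpow_le_zpow_right₀ (by norm_num) hjk
      gcongr
    refine (ker_small (h.dl j) (h.dl k).rf (by positivity) (by positivity) (by positivity)
      (by positivity) hle (by rw [integral_rf, integral_dl, h0])).trans (le_of_eq ?_)
    congr 1
    rw [abs_of_nonpos (by linarith), neg_neg, zpow_sub₀ (by norm_num)]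
    field_simp
  · have hle : A * ((2:ℝ) ^ j)⁻¹ ≤ A * ((2:ℝ) ^ k)⁻¹ := by
      have : (2:ℝ) ^ k ≤ (2:ℝ) ^ j := zpow_le_zpow_right₀ (by norm_num) hjk
      gcongr
    have e : cv (dl j ψ) (rf (dl k ψ)) = cv (rf (dl k ψ)) (dl j ψ) := by
      funext v; exact cv_comm v
    rw [e]
    refine (ker_small (h.dl k).rf (h.dl j) (by positivity) (by positivity) (by positivity)
      (by positivity) hle (by rw [integral_dl, h0])).trans (le_of_eq ?_)
    congr 1
    rw [abs_of_nonneg (by linarith), neg_sub, zpow_sub₀ (by norm_num)]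
    field_simp

end Vale.Agent.P112.H158
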