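import Mathlib
import Vale.Agent.P112.H158.LP

/-!
# P112, chapter A (helper158): Littlewood-Paley inequality on `ℝ`
-/

open MeasureTheory Set
open scoped ENNReal

set_option linter.all false

namespace Vale.Agent.P112.H158

lemma sum_two_zpow_le (s : Finset ℤ) (j : ℤ) : ∑ k ∈ s, (2:ℝ) ^ (-|j - k|) ≤ 3 := by
  classical
  -- compare with an interval
  obtain ⟨N, hN⟩ : ∃ N : ℕ, ∀ k ∈ s, (k - j).natAbs < N := by
    refine ⟨(s.sup fun k => (k - j).natAbs) + 1, fun k hk => ?_⟩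
    have := Finset.le_sup (f := fun k => (k - j).natAbs) hk
    exact Nat.lt_succ_of_le this
  have hgeo : ∀ N : ℕ, ∑ n ∈ Finset.range N, ((2:ℝ)⁻¹) ^ n ≤ 2 := by
    intro N
    have := Summable.sum_le_tsum (Finset.range N) (fun n _ => by positivity)
      (summable_geometric_of_lt_one (r := (2:ℝ)⁻¹) (by norm_num) (by norm_num))
    rw [tsum_geometric_of_lt_one (by norm_num) (by norm_num)] at this
    norm_num at this ⊢
    exact this
  have hsub : s ⊆ ((Finset.range N).image fun n : ℕ => j + n) ∪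
      ((Finset.range N).image fun n : ℕ => j - 1 - n) := by
    intro k hk
    have hkN := hN k hk
    rw [Finset.mem_union, Finset.mem_image, Finset.mem_image]
    rcases le_total j k with h | h
    · left
      refine ⟨(k - j).natAbs, Finset.mem_range.2 hkN, ?_⟩
      omega
    · by_cases hkj : k = j
      · left
        exact ⟨0, Finset.mem_range.2 (by omega), by simp [hkj]⟩
      · right
        refine ⟨(k - j).natAbs - 1, Finset.mem_range.2 (by omega), ?_⟩
        omega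
  calc ∑ k ∈ s, (2:ℝ) ^ (-|j - k|)
      ≤ ∑ k ∈ ((Finset.range N).image fun n : ℕ => j + n) ∪
          ((Finset.range N).image fun n : ℕ => j - 1 - n), (2:ℝ) ^ (-|j - k|) :=
        Finset.sum_le_sum_of_subset_of_nonneg hsub (fun k _ _ => by positivity)
    _ ≤ ∑ k ∈ ((Finset.range N).image fun n : ℕ => j + n), (2:ℝ) ^ (-|j - k|) +
          ∑ k ∈ ((Finset.range N).image fun n : ℕ => j - 1 - n), (2:ℝ) ^ (-|j - k|) := by
        have := Finset.sum_union_inter (s₁ := ((Finset.range N).image fun n : ℕ => j + (n:ℤ)))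
          (s₂ := ((Finset.range N).image fun n : ℕ => j - 1 - (n:ℤ)))
          (f := fun k => (2:ℝ) ^ (-|j - k|))
        have h0 : 0 ≤ ∑ k ∈ ((Finset.range N).image fun n : ℕ => j + (n:ℤ)) ∩
            ((Finset.range N).image fun n : ℕ => j - 1 - (n:ℤ)), (2:ℝ) ^ (-|j - k|) :=
          Finset.sum_nonneg fun k _ => by positivity
        linarith
    _ ≤ ∑ n ∈ Finset.range N, ((2:ℝ)⁻¹) ^ n + ∑ n ∈ Finset.range N, ((2:ℝ)⁻¹) ^ n * 2⁻¹ := by
        gcongr
        · rw [Finset.sum_image (fun a _ b _ h => by simpa using h)]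
          refine le_of_eq (Finset.sum_congr rfl fun n _ => ?_)
          rw [show j - (j + (n:ℤ)) = -(n:ℤ) by ring, abs_neg, abs_of_nonneg (by positivity),
            zpow_neg, zpow_natCast, inv_pow]
        · rw [Finset.sum_image (fun a _ b _ h => by simpa using h)]
          refine le_of_eq (Finset.sum_congr rfl fun n _ => ?_)
          rw [show j - (j - 1 - (n:ℤ)) = ((n + 1 : ℕ) : ℤ) by push_cast; ring,
            abs_of_nonneg (by positivity), zpow_neg, zpow_natCast, ← inv_pow, pow_succ]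
    _ ≤ 2 + 1 := by
        rw [← Finset.sum_mul]
        have := hgeo N
        linarith
    _ = 3 := by norm_num

/-- Schur / almost orthogonality in a real Hilbert space -/
lemma hilbert_ao {E : Type*} [NormedAddCommGroup E] [InnerProductSpace ℝ E] (s : Finset ℤ)
    (v : ℤ → E) (a : ℤ → ℝ) (c : ℝ) (hc : 0 ≤ c)
    (h : ∀ j ∈ s, ∀ k ∈ s, inner ℝ (v j) (v k) ≤ c * (2:ℝ) ^ (-|j - k|) * (a j * a k)) :
    ‖∑ k ∈ s, v k‖ ^ 2 ≤ 3 * c * ∑ k ∈ s, a k ^ 2 := by
  rw [← real_inner_self_eq_norm_sq, sum_inner]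
  simp_rw [inner_sum]
  calc ∑ j ∈ s, ∑ k ∈ s, inner ℝ (v j) (v k)
      ≤ ∑ j ∈ s, ∑ k ∈ s, (c * (2:ℝ) ^ (-|j - k|) * (a j ^ 2 / 2)
          + c * (2:ℝ) ^ (-|j - k|) * (a k ^ 2 / 2)) := by
        refine Finset.sum_le_sum fun j hj => Finset.sum_le_sum fun k hk => ?_
        refine (h j hj k hk).trans ?_
        rw [← mul_add]
        have h1 : a j * a k ≤ a j ^ 2 / 2 + a k ^ 2 / 2 := by nlinarith [sq_nonneg (a j - a k)]
        have h2 : 0 ≤ c * (2:ℝ) ^ (-|j - k|) := by positivity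
        exact mul_le_mul_of_nonneg_left h1 h2
    _ = ∑ j ∈ s, ∑ k ∈ s, c * (2:ℝ) ^ (-|j - k|) * (a j ^ 2 / 2)
          + ∑ j ∈ s, ∑ k ∈ s, c * (2:ℝ) ^ (-|j - k|) * (a k ^ 2 / 2) := by
        rw [← Finset.sum_add_distrib]
        refine Finset.sum_congr rfl fun j _ => ?_
        rw [Finset.sum_add_distrib]
    _ = ∑ j ∈ s, ∑ k ∈ s, c * (2:ℝ) ^ (-|j - k|) * (a j ^ 2 / 2)
          + ∑ j ∈ s, ∑ k ∈ s, c * (2:ℝ) ^ (-|j - k|) * (a j ^ 2 / 2) := by
        congr 1
        rw [Finset.sum_comm]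
        refine Finset.sum_congr rfl fun j _ => Finset.sum_congr rfl fun k _ => ?_
        rw [abs_sub_comm]
    _ = ∑ j ∈ s, (c * a j ^ 2) * ∑ k ∈ s, (2:ℝ) ^ (-|j - k|) := by
        rw [← Finset.sum_add_distrib]
        refine Finset.sum_congr rfl fun j _ => ?_
        rw [← Finset.sum_add_distrib, Finset.mul_sum]
        refine Finset.sum_congr rfl fun k _ => ?_
        ring
    _ ≤ ∑ j ∈ s, (c * a j ^ 2) * 3 := by
        refine Finset.sum_le_sum fun j _ => ?_
        exact mul_le_mul_of_nonneg_left (sum_two_zpow_le s j) (by positivity)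
    _ = _ := by
        rw [Finset.mul_sum]
        refine Finset.sum_congr rfl fun j _ => ?_
        ring

/-- real form of the square norm -/
lemma integral_sq_eq {f : ℝ → ℝ} (hf : Measurable f) : ∫ y, f y ^ 2 = (nsq f).toReal := by
  unfold nsq
  rw [integral_eq_lintegral_of_nonneg_ae (Filter.Eventually.of_forall fun x => sq_nonneg _)
    (hf.pow_const 2).aestronglyMeasurable]
  congr 1
  refine lintegral_congr fun x => ?_
  rw [Real.enorm_eq_ofReal_abs, ← ENNReal.ofReal_pow (abs_nonneg _), sq_abs]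

/-- Young, real form -/
lemma young_real {K g : ℝ → ℝ} (hK : Measurable K) (hg : Measurable g)
    (hg2 : MemLp g 2 volume) {c : ℝ} (hc : 0 ≤ c) (hK1 : n1 K ≤ ENNReal.ofReal c) :
    ∫ y, cv K g y ^ 2 ≤ c ^ 2 * ∫ y, g y ^ 2 := by
  rw [integral_sq_eq (measurable_cv hK hg), integral_sq_eq hg]
  have h1 := young hK hg
  have h2 : nsq g < ⊤ := (nsq_lt_top_iff hg).2 hg2
  have h3 : nsq (cv K g) ≤ ENNReal.ofReal (c ^ 2) * nsq g := by
    refine h1.trans ?_
    gcongr
    rw [ENNReal.ofReal_pow hc]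
    gcongr
  calc (nsq (cv K g)).toReal ≤ (ENNReal.ofReal (c ^ 2) * nsq g).toReal :=
        ENNReal.toReal_mono (ENNReal.mul_ne_top ENNReal.ofReal_ne_top h2.ne) h3
    _ = _ := by rw [ENNReal.toReal_mul, ENNReal.toReal_ofReal (by positivity)]

/-- Cauchy-Schwarz, real form -/
lemma cs_real {f g : ℝ → ℝ} (hf2 : MemLp f 2 volume) (hg2 : MemLp g 2 volume) :
    (∫ y, f y * g y) ^ 2 ≤ (∫ y, f y ^ 2) * ∫ y, g y ^ 2 := by
  have h := real_inner_mul_inner_self_le (hf2.toLp f) (hg2.toLp g)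
  have e : ∀ {u w : ℝ → ℝ} (hu : MemLp u 2 volume) (hw : MemLp w 2 volume),
      inner ℝ (hu.toLp u) (hw.toLp w) = ∫ y, u y * w y := by
    intro u w hu hw
    rw [L2.inner_def]
    refine integral_congr_ae ?_
    filter_upwards [hu.coeFn_toLp, hw.coeFn_toLp] with y h1 h2
    rw [h1, h2]
    simp [mul_comm]
  rw [e hf2 hg2, e hf2 hf2, e hg2 hg2] at h
  calc (∫ y, f y * g y) ^ 2 = (∫ y, f y * g y) * ∫ y, f y * g y := by ring
    _ ≤ _ := h
    _ = _ := by simp_rw [sq]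

lemma inner_toLp {u w : ℝ → ℝ} (hu : MemLp u 2 volume) (hw : MemLp w 2 volume) :
      inner ℝ (hu.toLp u) (hw.toLp w) = ∫ y, u y * w y := by
  rw [L2.inner_def]
  refine integral_congr_ae ?_
  filter_upwards [hu.coeFn_toLp, hw.coeFn_toLp] with y h1 h2
  rw [h1, h2]
  simp [mul_comm]

/-- Gram bound -/
lemma gram {ψ : ℝ → ℝ} {A M : ℝ} (h : Kern ψ A M) (hA : 0 ≤ A) (hM : 0 ≤ M)
    (h0 : ∫ x, ψ x = 0) (j k : ℤ) {G H : ℝ → ℝ} (hG : Measurable G) (hH : Measurable H)
    (hG2 : MemLp G 2 volume) (hH2 : MemLp H 2 volume) :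
    ∫ y, cv (rf (dl j ψ)) G y * cv (rf (dl k ψ)) H y ≤
      16 * A ^ 4 * M ^ 2 * (2:ℝ) ^ (-|j - k|) *
        (Real.sqrt (∫ y, G y ^ 2) * Real.sqrt (∫ y, H y ^ 2)) := by
  have kj := h.dl j
  have kk := h.dl k
  have mj := kj.continuous.measurable
  have mk := kk.rf.continuous.measurable
  have m1 : Measurable (cv (rf (dl k ψ)) H) := measurable_cv mk hH
  have l1 : MemLp (cv (rf (dl k ψ)) H) 2 volume := memLp_cv mk hH kk.rf.n1_lt hH2
  have hrr : rf (dl j ψ) = rf (dl j ψ) := rfl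
  -- move the first convolution to the other side
  have e1 : ∫ y, cv (rf (dl j ψ)) G y * cv (rf (dl k ψ)) H y
      = ∫ y, G y * cv (cv (dl j ψ) (rf (dl k ψ))) H y := by
    have := integral_mul_cv (K := dl j ψ) (G := G) (g := cv (rf (dl k ψ)) H) mj hG m1 kj.n1_lt
      hG2 l1
    calc ∫ y, cv (rf (dl j ψ)) G y * cv (rf (dl k ψ)) H y
        = ∫ z, cv (rf (dl k ψ)) H z * cv (rf (dl j ψ)) G z := by
          refine integral_congr_ae (Filter.Eventually.of_forall fun y => ?_)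
          simp only []
          ring
      _ = ∫ y, G y * cv (dl j ψ) (cv (rf (dl k ψ)) H) y := this.symm
      _ = _ := by
          refine integral_congr_ae (Filter.Eventually.of_forall fun y => ?_)
          simp only []
          rw [cv_cv mj mk hH kk.rf.n1_lt ?_ hH2]
          exact kj.continuous.memLp_of_hasCompactSupport kj.hasCompactSupport
  have mK : Measurable (cv (dl j ψ) (rf (dl k ψ))) := measurable_cv mj mk
  set c := 16 * A ^ 4 * M ^ 2 * (2:ℝ) ^ (-|j - k|) with hc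
  have hc0 : 0 ≤ c := by positivity
  have hn := ker_ao h hA hM h0 j k
  have l2 : MemLp (cv (cv (dl j ψ) (rf (dl k ψ))) H) 2 volume :=
    memLp_cv mK hH (lt_of_le_of_lt hn ENNReal.ofReal_lt_top) hH2
  have hcs := cs_real hG2 l2
  have hy := young_real mK hH hH2 hc0 hn
  rw [e1]
  have hG0 : 0 ≤ ∫ y, G y ^ 2 := integral_nonneg fun _ => sq_nonneg _
  have hH0 : 0 ≤ ∫ y, H y ^ 2 := integral_nonneg fun _ => sq_nonneg _
  refine (le_abs_self _).trans (abs_le_of_sq_le_sq ?_ (by positivity))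
  calc (∫ y, G y * cv (cv (dl j ψ) (rf (dl k ψ))) H y) ^ 2
      ≤ (∫ y, G y ^ 2) * (c ^ 2 * ∫ y, H y ^ 2) := hcs.trans (by gcongr)
    _ = _ := by
        have e : (c * (√(∫ y, G y ^ 2) * √(∫ y, H y ^ 2))) ^ 2
            = c ^ 2 * (√(∫ y, G y ^ 2) ^ 2 * √(∫ y, H y ^ 2) ^ 2) := by ring
        rw [e, Real.sq_sqrt hG0, Real.sq_sqrt hH0]
        ring

/-- dual Littlewood-Paley inequality -/
theorem lp_dual {ψ : ℝ → ℝ} {A M : ℝ} (h : Kern ψ A M) (hA : 0 ≤ A) (hM : 0 ≤ M)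
    (h0 : ∫ x, ψ x = 0) (s : Finset ℤ) (G : ℤ → ℝ → ℝ) (hG : ∀ k, Measurable (G k))
    (hG2 : ∀ k, MemLp (G k) 2 volume) :
    ∫ y, (∑ k ∈ s, cv (rf (dl k ψ)) (G k) y) ^ 2 ≤
      48 * A ^ 4 * M ^ 2 * ∑ k ∈ s, ∫ y, G k y ^ 2 := by
  have hl : ∀ k, MemLp (cv (rf (dl k ψ)) (G k)) 2 volume := fun k =>
    memLp_cv (h.dl k).rf.continuous.measurable (hG k) (h.dl k).rf.n1_lt (hG2 k)
  have hH := hilbert_ao s (fun k => (hl k).toLp _) (fun k => Real.sqrt (∫ y, G k y ^ 2))
    (16 * A ^ 4 * M ^ 2) (by positivity) (fun j _ k _ => by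
      rw [inner_toLp (hl j) (hl k)]
      exact gram h hA hM h0 j k (hG j) (hG k) (hG2 j) (hG2 k))
  have e1 : ∑ k ∈ s, Real.sqrt (∫ y, G k y ^ 2) ^ 2 = ∑ k ∈ s, ∫ y, G k y ^ 2 := by
    refine Finset.sum_congr rfl fun k _ => ?_
    rw [Real.sq_sqrt (integral_nonneg fun _ => sq_nonneg _)]
  rw [e1] at hH
  have hsum : MemLp (fun y => ∑ k ∈ s, cv (rf (dl k ψ)) (G k) y) 2 volume := by
    have := memLp_finset_sum' s (fun k _ => hl k)
    convert this using 1
    funext y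
    rw [Finset.sum_apply]
  have e2 : ‖∑ k ∈ s, (hl k).toLp (cv (rf (dl k ψ)) (G k))‖ ^ 2
      = ∫ y, (∑ k ∈ s, cv (rf (dl k ψ)) (G k) y) ^ 2 := by
    have e3 : ∑ k ∈ s, (hl k).toLp (cv (rf (dl k ψ)) (G k)) = hsum.toLp _ := by
      apply Lp.ext
      refine (Lp.coeFn_finsetSum s _).trans ?_
      refine Filter.EventuallyEq.trans ?_ hsum.coeFn_toLp.symm
      have : ∀ᵐ y, ∀ k ∈ s, ((hl k).toLp (cv (rf (dl k ψ)) (G k)) : ℝ → ℝ) y
          = cv (rf (dl k ψ)) (G k) y := by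
        rw [Filter.eventually_all_finset]
        intro k _
        exact (hl k).coeFn_toLp
      filter_upwards [this] with y hy
      rw [Finset.sum_apply]
      exact Finset.sum_congr rfl hy
    rw [e3, ← real_inner_self_eq_norm_sq, inner_toLp hsum hsum]
    refine integral_congr_ae (Filter.Eventually.of_forall fun y => ?_)
    simp only []
    ring
  rw [e2] at hH
  calc _ ≤ _ := hH
    _ = _ := by ring

/-- Littlewood-Paley inequality -/
theorem lp {ψ : ℝ → ℝ} {A M : ℝ} (h : Kern ψ A M) (hA : 0 ≤ A) (hM : 0 ≤ M)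
    (h0 : ∫ x, ψ x = 0) (s : Finset ℤ) (g : ℝ → ℝ) (hg : Measurable g)
    (hg2 : MemLp g 2 volume) :
    ∑ k ∈ s, ∫ y, cv (dl k ψ) g y ^ 2 ≤ 48 * A ^ 4 * M ^ 2 * ∫ y, g y ^ 2 := by
  set G : ℤ → ℝ → ℝ := fun k => cv (dl k ψ) g with hGdef
  have hGm : ∀ k, Measurable (G k) := fun k => measurable_cv (h.dl k).continuous.measurable hg
  have hG2 : ∀ k, MemLp (G k) 2 volume := fun k =>
    memLp_cv (h.dl k).continuous.measurable hg (h.dl k).n1_lt hg2
  have hd := lp_dual h hA hM h0 s G hGm hG2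
  have hl : ∀ k, MemLp (cv (rf (dl k ψ)) (G k)) 2 volume := fun k =>
    memLp_cv (h.dl k).rf.continuous.measurable (hGm k) (h.dl k).rf.n1_lt (hG2 k)
  have hsum : MemLp (fun y => ∑ k ∈ s, cv (rf (dl k ψ)) (G k) y) 2 volume := by
    have := memLp_finset_sum' s (fun k _ => hl k)
    convert this using 1
    funext y
    rw [Finset.sum_apply]
  set S := ∑ k ∈ s, ∫ y, G k y ^ 2 with hS
  have hS0 : 0 ≤ S := Finset.sum_nonneg fun k _ => integral_nonneg fun _ => sq_nonneg _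
  have e1 : S = ∫ y, g y * ∑ k ∈ s, cv (rf (dl k ψ)) (G k) y := by
    have e2 : ∀ k ∈ s, ∫ y, G k y ^ 2 = ∫ y, g y * cv (rf (dl k ψ)) (G k) y := by
      intro k _
      have := integral_mul_cv (K := dl k ψ) (G := G k) (g := g)
        (h.dl k).continuous.measurable (hGm k) hg (h.dl k).n1_lt (hG2 k) hg2
      rw [← this]
      refine integral_congr_ae (Filter.Eventually.of_forall fun y => ?_)
      simp only [hGdef]
      ring
    rw [hS, Finset.sum_congr rfl e2, ← integral_finset_sum]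
    · refine integral_congr_ae (Filter.Eventually.of_forall fun y => ?_)
      simp only []
      rw [Finset.mul_sum]
    · intro k _
      have := hg2.integrable_mul (hl k)
      exact this
  have hcs := cs_real hg2 hsum
  rw [← e1] at hcs
  have hg0 : 0 ≤ ∫ y, g y ^ 2 := integral_nonneg fun _ => sq_nonneg _
  have h3 : S ^ 2 ≤ (∫ y, g y ^ 2) * (48 * A ^ 4 * M ^ 2 * S) :=
    hcs.trans (by gcongr)
  rcases hS0.eq_or_lt with h4 | h4
  · rw [← h4]; positivity
  · have h5 : S * S ≤ (48 * A ^ 4 * M ^ 2 * ∫ y, g y ^ 2) * S := by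
      calc S * S = S ^ 2 := by ring
        _ ≤ _ := h3
        _ = _ := by ring
    exact le_of_mul_le_mul_right h5 h4

end Vale.Agent.P112.H158
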