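import Mathlib
import Vale.Agent.P112.H158.LP2
import Vale.Agent.P112.H213.Defs

/-!
# P112, chapter A (helper158): Littlewood-Paley inequality in the second variable (`DEC.LP`)
-/

open MeasureTheory Set
open scoped ENNReal

set_option linter.all false

namespace Vale.Agent.P112.H158

lemma nsq_eq_ofReal {f : ℝ → ℝ} (hf : Measurable f) (hf2 : MemLp f 2 volume) :
    nsq f = ENNReal.ofReal (∫ y, f y ^ 2) := by
  rw [integral_sq_eq hf, ENNReal.ofReal_toReal]
  exact ((nsq_lt_top_iff hf).2 hf2).ne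

/-- Littlewood-Paley, `lintegral` form -/
theorem lp_enn {ψ : ℝ → ℝ} {A M : ℝ} (h : Kern ψ A M) (hA : 0 ≤ A) (hM : 0 ≤ M)
    (h0 : ∫ x, ψ x = 0) (s : Finset ℤ) (g : ℝ → ℝ) (hg : Measurable g)
    (hg2 : MemLp g 2 volume) :
    ∑ k ∈ s, nsq (cv (dl k ψ) g) ≤ ENNReal.ofReal (48 * A ^ 4 * M ^ 2) * nsq g := by
  have h1 := lp h hA hM h0 s g hg hg2
  have e : ∀ k ∈ s, nsq (cv (dl k ψ) g) = ENNReal.ofReal (∫ y, cv (dl k ψ) g y ^ 2) := by
    intro k _
    exact nsq_eq_ofReal (measurable_cv (h.dl k).continuous.measurable hg)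
      (memLp_cv (h.dl k).continuous.measurable hg (h.dl k).n1_lt hg2)
  rw [Finset.sum_congr rfl e, ← ENNReal.ofReal_sum_of_nonneg
    (fun k _ => integral_nonneg fun _ => sq_nonneg _), nsq_eq_ofReal hg hg2,
    ← ENNReal.ofReal_mul (by positivity)]
  exact ENNReal.ofReal_le_ofReal h1

/-- dual form, `lintegral` form -/
theorem lp_dual_enn {ψ : ℝ → ℝ} {A M : ℝ} (h : Kern ψ A M) (hA : 0 ≤ A) (hM : 0 ≤ M)
    (h0 : ∫ x, ψ x = 0) (s : Finset ℤ) (G : ℤ → ℝ → ℝ) (hG : ∀ k, Measurable (G k))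
    (hG2 : ∀ k, MemLp (G k) 2 volume) :
    nsq (fun y => ∑ k ∈ s, cv (rf (dl k ψ)) (G k) y) ≤
      ENNReal.ofReal (48 * A ^ 4 * M ^ 2) * ∑ k ∈ s, nsq (G k) := by
  have h1 := lp_dual h hA hM h0 s G hG hG2
  have hl : ∀ k, MemLp (cv (rf (dl k ψ)) (G k)) 2 volume := fun k =>
    memLp_cv (h.dl k).rf.continuous.measurable (hG k) (h.dl k).rf.n1_lt (hG2 k)
  have hsum : MemLp (fun y => ∑ k ∈ s, cv (rf (dl k ψ)) (G k) y) 2 volume := by
    have := memLp_finset_sum' s (fun k _ => hl k)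
    convert this using 1
    funext y
    rw [Finset.sum_apply]
  have hms : Measurable (fun y => ∑ k ∈ s, cv (rf (dl k ψ)) (G k) y) := by
    apply Finset.measurable_sum
    intro k _
    exact measurable_cv (h.dl k).rf.continuous.measurable (hG k)
  have e : ∀ k ∈ s, nsq (G k) = ENNReal.ofReal (∫ y, G k y ^ 2) := by
    intro k _
    exact nsq_eq_ofReal (hG k) (hG2 k)
  rw [Finset.sum_congr rfl e, ← ENNReal.ofReal_sum_of_nonneg
    (fun k _ => integral_nonneg fun _ => sq_nonneg _), nsq_eq_ofReal hms hsum,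
    ← ENNReal.ofReal_mul (by positivity)]
  exact ENNReal.ofReal_le_ofReal h1

lemma kern_of_contDiff {ψ : ℝ → ℝ} (h1 : ContDiff ℝ 1 ψ) (h2 : HasCompactSupport ψ) :
    ∃ A M : ℝ, 0 ≤ A ∧ 0 ≤ M ∧ Kern ψ A M := by
  obtain ⟨M, hM⟩ := h1.lipschitzWith_of_hasCompactSupport h2 one_ne_zero
  obtain ⟨A, hA⟩ := h2.isCompact.isBounded.subset_closedBall (0:ℝ)
  refine ⟨max A 0 + 1, M, by positivity, M.2, ⟨fun x y => ?_, fun x hx => ?_⟩⟩
  · have := hM.dist_le_mul x y
    rwa [Real.dist_eq, Real.dist_eq] at this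
  · by_contra hne
    have : x ∈ tsupport ψ := subset_tsupport _ hne
    have h3 := hA this
    rw [Metric.mem_closedBall, dist_zero_right, Real.norm_eq_abs] at h3
    have h4 : A ≤ max A 0 := le_max_left _ _
    linarith

lemma cy_eq_cv (ψ : ℝ → ℝ) (F : ℝ × ℝ → ℝ) (x y : ℝ) :
    DEC.cy ψ F (x, y) = cv ψ (fun t => F (x, t)) y := by
  unfold DEC.cy cv
  have := integral_sub_left_eq_self (μ := volume) (fun s => ψ s * F (x, y - s)) y
  rw [← this]
  refine integral_congr_ae (Filter.Eventually.of_forall fun z => ?_)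
  simp only []
  rw [sub_sub_cancel]

/-- integral of a square over the plane as an iterated `lintegral` -/
lemma plane_sq {F : ℝ × ℝ → ℝ} (hF : Measurable F) :
    ∫ z, F z ^ 2 = (∫⁻ x, nsq (fun t => F (x, t))).toReal := by
  rw [integral_eq_lintegral_of_nonneg_ae (Filter.Eventually.of_forall fun x => sq_nonneg _)
    (hF.pow_const 2).aestronglyMeasurable]
  congr 1
  have e : ∀ z, ENNReal.ofReal (F z ^ 2) = ‖F z‖ₑ ^ 2 := by
    intro z
    rw [Real.enorm_eq_ofReal_abs, ← ENNReal.ofReal_pow (abs_nonneg _), sq_abs]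
  rw [lintegral_congr e]
  have : (volume : Measure (ℝ × ℝ)) = volume.prod volume := rfl
  rw [this, lintegral_prod _ (hF.enorm.pow_const 2).aemeasurable]
  rfl

lemma plane_sq_lt {F : ℝ × ℝ → ℝ} (hF : Continuous F) (hc : HasCompactSupport F) :
    ∫⁻ x, nsq (fun t => F (x, t)) < ⊤ := by
  have h : Integrable (fun z => F z ^ 2) :=
    (hF.pow 2).integrable_of_hasCompactSupport (by
      have := hc.comp_left (g := fun t : ℝ => t ^ 2) (by simp)
      exact this)
  have h2 := h.2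
  unfold HasFiniteIntegral at h2
  refine lt_of_le_of_lt (le_of_eq ?_) h2
  have : (volume : Measure (ℝ × ℝ)) = volume.prod volume := rfl
  rw [this, lintegral_prod _ (hF.measurable.pow_const 2).enorm.aemeasurable]
  refine lintegral_congr fun x => ?_
  unfold nsq
  refine lintegral_congr fun y => ?_
  rw [enorm_pow]

/-- the Littlewood-Paley inequality in the second variable -/
theorem dec_lp : DEC.LP := by
  intro ψ h1 h2 h0
  obtain ⟨A, M, hA, hM, hk⟩ := kern_of_contDiff h1 h2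
  refine ⟨48 * A ^ 4 * M ^ 2 + 1, by positivity, ?_⟩
  intro S F hF
  have hdil : ∀ k, DEC.dil k ψ = dl k ψ := fun k => rfl
  have hm : ∀ k, Measurable (DEC.cy (DEC.dil k ψ) F) := by
    intro k
    have hkm : Measurable (dl k ψ) := (hk.dl k).continuous.measurable
    have hFm : Measurable F := hF.1.measurable
    have : StronglyMeasurable (fun p : (ℝ × ℝ) × ℝ => dl k ψ p.2 * F (p.1.1, p.1.2 - p.2)) := by
      apply Measurable.stronglyMeasurable
      fun_prop
    exact (this.integral_prod_right' (ν := volume)).measurable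
  have hlt := plane_sq_lt hF.1 hF.2
  -- fibrewise inequality
  have hfib : ∀ x, ∑ k ∈ S, nsq (fun t => DEC.cy (DEC.dil k ψ) F (x, t))
      ≤ ENNReal.ofReal (48 * A ^ 4 * M ^ 2) * nsq (fun t => F (x, t)) := by
    intro x
    have hcx : Continuous (fun t => F (x, t)) := hF.1.comp (by fun_prop)
    have hsx : HasCompactSupport (fun t => F (x, t)) := by
      refine HasCompactSupport.intro (hF.2.isCompact.image continuous_snd) fun t ht => ?_
      by_contra hne
      exact ht ⟨(x, t), subset_tsupport _ hne, rfl⟩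
    have hlx : MemLp (fun t => F (x, t)) 2 volume := hcx.memLp_of_hasCompactSupport hsx
    have := lp_enn hk hA hM h0 S (fun t => F (x, t)) hcx.measurable hlx
    have e : ∀ k ∈ S, nsq (fun t => DEC.cy (DEC.dil k ψ) F (x, t))
        = nsq (cv (dl k ψ) (fun t => F (x, t))) := by
      intro k _
      unfold nsq
      refine lintegral_congr fun y => ?_
      simp only []
      rw [cy_eq_cv, hdil]
    rw [Finset.sum_congr rfl e]
    exact this
  have hsum : ∑ k ∈ S, ∫⁻ x, nsq (fun t => DEC.cy (DEC.dil k ψ) F (x, t))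
      ≤ ENNReal.ofReal (48 * A ^ 4 * M ^ 2) * ∫⁻ x, nsq (fun t => F (x, t)) := by
    have hmeas : ∀ k ∈ S, Measurable (fun x => nsq (fun t => DEC.cy (DEC.dil k ψ) F (x, t))) := by
      intro k _
      unfold nsq
      exact Measurable.lintegral_prod_right' (f := fun p : ℝ × ℝ =>
        ‖DEC.cy (DEC.dil k ψ) F (p.1, p.2)‖ₑ ^ 2) ((hm k).enorm.pow_const 2)
    rw [← lintegral_finset_sum' _ (fun k hk => (hmeas k hk).aemeasurable)]
    calc ∫⁻ x, ∑ k ∈ S, nsq (fun t => DEC.cy (DEC.dil k ψ) F (x, t))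
        ≤ ∫⁻ x, ENNReal.ofReal (48 * A ^ 4 * M ^ 2) * nsq (fun t => F (x, t)) :=
          lintegral_mono hfib
      _ = _ := by
          rw [lintegral_const_mul]
          unfold nsq
          exact Measurable.lintegral_prod_right' (f := fun p : ℝ × ℝ => ‖F (p.1, p.2)‖ₑ ^ 2)
            (hF.1.measurable.enorm.pow_const 2)
  have hfin : ∀ k ∈ S, ∫⁻ x, nsq (fun t => DEC.cy (DEC.dil k ψ) F (x, t)) ≠ ⊤ := by
    intro k hk'
    refine ne_top_of_le_ne_top (ENNReal.mul_ne_top ENNReal.ofReal_ne_top hlt.ne)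
      ((Finset.single_le_sum (f := fun k => ∫⁻ x, nsq (fun t => DEC.cy (DEC.dil k ψ) F (x, t)))
        (fun _ _ => zero_le) hk').trans hsum)
  calc ∑ k ∈ S, ∫ z, DEC.cy (DEC.dil k ψ) F z ^ 2
      = ∑ k ∈ S, (∫⁻ x, nsq (fun t => DEC.cy (DEC.dil k ψ) F (x, t))).toReal :=
        Finset.sum_congr rfl fun k _ => plane_sq (hm k)
    _ = (∑ k ∈ S, ∫⁻ x, nsq (fun t => DEC.cy (DEC.dil k ψ) F (x, t))).toReal :=
        (ENNReal.toReal_sum hfin).symm
    _ ≤ (ENNReal.ofReal (48 * A ^ 4 * M ^ 2) * ∫⁻ x, nsq (fun t => F (x, t))).toReal :=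
        ENNReal.toReal_mono (ENNReal.mul_ne_top ENNReal.ofReal_ne_top hlt.ne) hsum
    _ = 48 * A ^ 4 * M ^ 2 * ∫ z, F z ^ 2 := by
        rw [ENNReal.toReal_mul, ENNReal.toReal_ofReal (by positivity), plane_sq hF.1.measurable]
    _ ≤ _ := by
        have : 0 ≤ ∫ z, F z ^ 2 := integral_nonneg fun _ => sq_nonneg _
        nlinarith

end Vale.Agent.P112.H158
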